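import Vale.Agent.P100H.Bootstrap

/-!
# P100, the line p = 1: mean values against polynomial bumps
-/

noncomputable section

namespace Vale.Agent.P100L

open Filter Topology Set MeasureTheory Vale.Agent.P100H

variable {n : ℕ}

theorem hasDerivAt_posPow (m : ℕ) (t : ℝ) :
    HasDerivAt (fun t : ℝ => max 0 t ^ (m + 2)) ((m + 2 : ℝ) * max 0 t ^ (m + 1)) t := by
  rcases lt_trichotomy t 0 with h | h | h
  · have e : (fun t : ℝ => max 0 t ^ (m + 2)) =ᶠ[𝓝 t] fun _ => 0 := by
      filter_upwards [gt_mem_nhds h] with s hs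
      simp [max_eq_left (le_of_lt hs)]
    simpa [max_eq_left h.le] using (hasDerivAt_const t (0 : ℝ)).congr_of_eventuallyEq e
  · subst h
    rw [hasDerivAt_iff_isLittleO_nhds_zero]
    simp only [zero_add, max_self, ne_eq, Nat.succ_ne_zero, not_false_eq_true, zero_pow,
      sub_zero, mul_zero, smul_zero]
    refine Asymptotics.IsBigO.trans_isLittleO (g := fun h : ℝ => h ^ (m + 2)) ?_ ?_
    · refine Asymptotics.isBigO_of_le _ fun h => ?_
      simp only [norm_pow, Real.norm_eq_abs]
      refine pow_le_pow_left₀ (abs_nonneg _) ?_ _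
      rw [abs_of_nonneg (le_max_left 0 h)]
      exact max_le (abs_nonneg h) (le_abs_self h)
    · exact Asymptotics.isLittleO_pow_id (by omega)
  · have e : (fun t : ℝ => max 0 t ^ (m + 2)) =ᶠ[𝓝 t] fun s => s ^ (m + 2) := by
      filter_upwards [lt_mem_nhds h] with s hs
      rw [max_eq_right (le_of_lt hs)]
    rw [max_eq_right h.le]
    refine ((hasDerivAt_pow (m + 2) t).congr_of_eventuallyEq e).congr_deriv ?_
    push_cast
    ring_nf

/-- Polynomial bump supported in the unit ball. -/
def bump (m : ℕ) (z : E n) : ℝ := max 0 (1 - ‖z‖ ^ 2) ^ m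

theorem bump_nonneg (m : ℕ) (z : E n) : 0 ≤ bump m z := pow_nonneg (le_max_left _ _) m

theorem bump_le_one (m : ℕ) (z : E n) : bump m z ≤ 1 :=
  pow_le_one₀ (le_max_left _ _) (max_le zero_le_one (by nlinarith [sq_nonneg ‖z‖]))

theorem continuous_bump (m : ℕ) : Continuous (bump m : E n → ℝ) := by unfold bump; fun_prop

theorem bump_out {m : ℕ} (hm : m ≠ 0) {z : E n} (hz : 1 ≤ ‖z‖) : bump m z = 0 := by
  rw [bump, max_eq_left (by nlinarith [norm_nonneg z]), zero_pow hm]

theorem differentiable_bump (m : ℕ) (z : E n) :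
    DifferentiableAt ℝ (bump (m + 2) : E n → ℝ) z :=
  show DifferentiableAt ℝ ((fun t : ℝ => max 0 t ^ (m + 2)) ∘ fun x : E n => 1 - ‖x‖ ^ 2) z from
  HasFDerivAt.differentiableAt ((hasDerivAt_posPow m (1 - ‖z‖ ^ 2)).comp_hasFDerivAt z
    ((hasStrictFDerivAt_norm_sq z).hasFDerivAt.const_sub 1))

theorem fderiv_bump (m : ℕ) (z : E n) (i : Fin n) :
    fderiv ℝ (bump (m + 2) : E n → ℝ) z (cv i) = -(2 * (m + 2 : ℝ)) * bump (m + 1) z * z i := by
  have h := (hasDerivAt_posPow m (1 - ‖z‖ ^ 2)).comp_hasFDerivAt z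
      ((hasStrictFDerivAt_norm_sq z).hasFDerivAt.const_sub 1)
  have e : (bump (m + 2) : E n → ℝ) =
      (fun t : ℝ => max 0 t ^ (m + 2)) ∘ fun x : E n => 1 - ‖x‖ ^ 2 := rfl
  rw [e, h.fderiv]
  simp [inner_cv, bump]
  ring

theorem continuous_cut {m : ℕ} (hm : m ≠ 0) {f : E n → ℝ}
    (hf : ∀ z : E n, ‖z‖ ≤ 1 → ContinuousAt f z) : Continuous fun z => bump m z * f z := by
  refine continuous_iff_continuousAt.2 fun z => ?_
  rcases le_or_gt ‖z‖ 1 with h | h
  · exact (continuous_bump m).continuousAt.mul (hf z h)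
  · refine (continuousAt_const (y := (0 : ℝ))).congr ?_
    filter_upwards [(isOpen_lt continuous_const continuous_norm).mem_nhds h] with w hw
    rw [bump_out hm (le_of_lt hw), zero_mul]

theorem integrable_cut {m : ℕ} (hm : m ≠ 0) {f : E n → ℝ}
    (hf : ∀ z : E n, ‖z‖ ≤ 1 → ContinuousAt f z) : Integrable fun z => bump m z * f z :=
  (continuous_cut hm hf).integrable_of_hasCompactSupport
    (HasCompactSupport.intro (isCompact_closedBall (0 : E n) 1) fun z hz => by
      rw [mem_closedBall_zero_iff, not_le] at hz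
      rw [bump_out hm hz.le, zero_mul])

theorem tsupport_bump {m : ℕ} (hm : m ≠ 0) {f : E n → ℝ} :
    tsupport (fun z => bump m z * f z) ⊆ Metric.closedBall (0 : E n) 1 := by
  refine closure_minimal (fun z hz => ?_) Metric.isClosed_closedBall
  rw [mem_closedBall_zero_iff]
  by_contra h
  exact hz (by simp [bump_out hm (not_le.1 h).le])

/-- Total mass of a bump. -/
def mass (n m : ℕ) : ℝ := ∫ z : E n, bump m z

theorem integrable_bump {m : ℕ} (hm : m ≠ 0) : Integrable (bump m : E n → ℝ) := by
  simpa using integrable_cut (n := n) hm (f := fun _ => 1) fun z _ => continuousAt_const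

theorem mass_pos (n : ℕ) {m : ℕ} (hm : m ≠ 0) : 0 < mass n m :=
  (continuous_bump m).integral_pos_of_hasCompactSupport_nonneg_nonzero
    (HasCompactSupport.intro (isCompact_closedBall (0 : E n) 1) fun z hz => by
      rw [mem_closedBall_zero_iff, not_le] at hz
      exact bump_out hm hz.le)
    (bump_nonneg m) (x := 0) (by simp [bump])

theorem mem_ball_affine {x0 z : E n} {a ρ : ℝ} (ha : 0 ≤ a) (haρ : a ≤ ρ) (hz : ‖z‖ ≤ 1) :
    x0 + a • z ∈ Metric.closedBall x0 ρ := by
  rw [Metric.mem_closedBall, dist_eq_norm, add_sub_cancel_left, norm_smul, Real.norm_eq_abs,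
    abs_of_nonneg ha]
  calc a * ‖z‖ ≤ a * 1 := mul_le_mul_of_nonneg_left hz ha
    _ ≤ ρ := by linarith

/-- Integration by parts along a coordinate against a bump. -/
theorem ibp_bump {g : E n → ℝ} (m : ℕ) (i : Fin n)
    (hg : ∀ z : E n, ‖z‖ ≤ 1 → ContDiffAt ℝ 1 g z) :
    ∫ z, bump (m + 2) z * fderiv ℝ g z (cv i) =
      (2 * (m + 2 : ℝ)) * ∫ z, bump (m + 1) z * (z i * g z) := by
  have hgd : ∀ z : E n, ‖z‖ ≤ 1 → ContinuousAt (fun z => fderiv ℝ g z (cv i)) z := fun z hz =>
    ((hg z hz).fderiv_right (m := 0) (by norm_num)).continuousAt.clm_apply continuousAt_const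
  have e : (fun z : E n => fderiv ℝ (bump (m + 2)) z (cv i) * g z) =
      fun z => -(2 * (m + 2 : ℝ)) * (bump (m + 1) z * (z i * g z)) := by
    funext z; rw [fderiv_bump]; ring
  have hc : ∀ z : E n, ‖z‖ ≤ 1 → ContinuousAt (fun z => z i * g z) z := fun z hz =>
    (contDiff_coord i).continuous.continuousAt.mul (hg z hz).continuousAt
  have hts : tsupport (bump (m + 2) : E n → ℝ) ⊆ Metric.closedBall 0 1 := by
    simpa using tsupport_bump (n := n) (m := m + 2) (by omega) (f := fun _ => 1)
  rw [integral_mul_fderiv_eq_neg_fderiv_mul_of_integrable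
    (by rw [e]; exact (integrable_cut (by omega) hc).const_mul _)
    (integrable_cut (by omega) hgd)
    (integrable_cut (by omega) fun z hz => (hg z hz).continuousAt)
    (fun z _ => differentiable_bump m z)
    (fun z hz => (hg z (mem_closedBall_zero_iff.1 (hts hz))).differentiableAt (by simp)), e,
    integral_const_mul]
  ring

/-- Sub-mean value inequality for an almost superharmonic function. -/
theorem mean_le {G : E n → ℝ} {x0 : E n} {ρ δ : ℝ} (hρ : 0 < ρ)
    (hG : ∀ y ∈ Metric.closedBall x0 ρ, ContDiffAt ℝ 2 G y)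
    (hlap : ∀ y ∈ Metric.closedBall x0 ρ, Laplacian.laplacian G y ≤ δ) :
    ∫ z, bump 3 z * G (x0 + ρ • z) ≤ mass n 3 * G x0 + δ * (mass n 4 * ρ ^ 2 / 16) := by
  set Φ : ℝ → ℝ := fun a => ∫ z, bump 3 z * G (x0 + a • z) with hΦ
  have hmem : ∀ a ∈ Icc (0 : ℝ) ρ, ∀ z : E n, ‖z‖ ≤ 1 → x0 + a • z ∈ Metric.closedBall x0 ρ :=
    fun a ha z hz => mem_ball_affine ha.1 ha.2 hz
  have hd1 : ∀ y ∈ Metric.closedBall x0 ρ, ContinuousAt (fderiv ℝ G) y := fun y hy =>
    ((hG y hy).fderiv_right (m := 1) (by norm_num)).continuousAt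
  obtain ⟨M, hM⟩ := (isCompact_closedBall x0 ρ).exists_bound_of_continuousOn
    (f := fderiv ℝ G) fun y hy => (hd1 y hy).continuousWithinAt
  have hcont : ContinuousOn Φ (Icc 0 ρ) := by
    refine continuousOn_integral_of_compact_support (isCompact_closedBall (0 : E n) 1) ?_ ?_
    · rintro ⟨a, z⟩ ⟨ha, -⟩
      refine ContinuousAt.continuousWithinAt ?_
      rcases le_or_gt ‖z‖ 1 with h | h
      · exact ((continuous_bump 3).comp continuous_snd).continuousAt.mul
          (ContinuousAt.comp (g := G) (hG _ (hmem a ha z h)).continuousAt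
            (by fun_prop : ContinuousAt (fun p : ℝ × E n => x0 + p.1 • p.2) (a, z)))
      · refine (continuousAt_const (y := (0 : ℝ))).congr ?_
        filter_upwards [(isOpen_lt continuous_const
          (continuous_norm.comp continuous_snd)).mem_nhds (x := (a, z)) h] with w hw
        simp only [Function.uncurry]
        rw [bump_out (by norm_num) (le_of_lt hw), zero_mul]
    · intro a z _ hz
      rw [mem_closedBall_zero_iff, not_le] at hz
      rw [bump_out (by norm_num) hz.le, zero_mul]
  have hder : ∀ a ∈ Ioo (0 : ℝ) ρ, ∃ d, HasDerivAt Φ d a ∧ d ≤ δ * mass n 4 * a / 8 := by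
    intro a ha
    have haI : a ∈ Icc (0 : ℝ) ρ := Ioo_subset_Icc_self ha
    have hGc : ∀ z : E n, ‖z‖ ≤ 1 → ContinuousAt (fun z => G (x0 + a • z)) z := fun z hz =>
      ContinuousAt.comp (g := G) (hG _ (hmem a haI z hz)).continuousAt (by fun_prop)
    have hDc : ∀ z : E n, ‖z‖ ≤ 1 → ContinuousAt (fun z => fderiv ℝ G (x0 + a • z) z) z :=
      fun z hz => (ContinuousAt.comp (g := fderiv ℝ G) (f := fun z : E n => x0 + a • z)
        (hd1 _ (hmem a haI z hz)) (by fun_prop)).clm_apply continuousAt_id
    obtain ⟨-, hD⟩ := hasDerivAt_integral_of_dominated_loc_of_deriv_le (μ := volume)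
      (F := fun (b : ℝ) (z : E n) => bump 3 z * G (x0 + b • z))
      (F' := fun b z => bump 3 z * fderiv ℝ G (x0 + b • z) z)
      (bound := (Metric.closedBall (0 : E n) 1).indicator fun _ => M)
      (Ioo_mem_nhds ha.1 ha.2)
      (by
        filter_upwards [Ioo_mem_nhds ha.1 ha.2] with b hb
        exact (continuous_cut (by norm_num) fun z hz => ContinuousAt.comp (g := G)
          (hG _ (hmem b (Ioo_subset_Icc_self hb) z hz)).continuousAt
          (by fun_prop)).aestronglyMeasurable)
      (integrable_cut (by norm_num) hGc)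
      (continuous_cut (by norm_num) hDc).aestronglyMeasurable
      (Eventually.of_forall fun z b hb => by
        rcases le_or_gt ‖z‖ 1 with h | h
        · rw [indicator_of_mem (mem_closedBall_zero_iff.2 h), norm_mul, Real.norm_eq_abs,
            abs_of_nonneg (bump_nonneg 3 z)]
          have h1 := hM _ (hmem b (Ioo_subset_Icc_self hb) z h)
          calc bump 3 z * ‖fderiv ℝ G (x0 + b • z) z‖
              ≤ 1 * (‖fderiv ℝ G (x0 + b • z)‖ * ‖z‖) :=
                mul_le_mul (bump_le_one 3 z) (ContinuousLinearMap.le_opNorm _ _) (norm_nonneg _)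
                  zero_le_one
            _ ≤ M := by
                rw [one_mul]
                exact (mul_le_of_le_one_right (norm_nonneg _) h).trans h1
        · rw [bump_out (by norm_num) h.le, zero_mul, norm_zero]
          rw [indicator_of_notMem (mt mem_closedBall_zero_iff.1 (not_le.2 h))])
      ((integrableOn_const (hs := measure_closedBall_lt_top.ne)).integrable_indicator
        measurableSet_closedBall)
      (Eventually.of_forall fun z b hb => by
        rcases le_or_gt ‖z‖ 1 with h | h
        · exact ((((hG _ (hmem b (Ioo_subset_Icc_self hb) z h)).differentiableAt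
            (by simp)).hasFDerivAt.comp_hasDerivAt b
            (by simpa using ((hasDerivAt_id b).smul_const z).const_add x0)).const_mul _)
        · simpa [bump_out (show 3 ≠ 0 by norm_num) h.le] using hasDerivAt_const b (0 : ℝ))
    refine ⟨_, hD, ?_⟩
    have hg : ∀ (i : Fin n) (z : E n), ‖z‖ ≤ 1 →
        ContDiffAt ℝ 1 (fun z => fderiv ℝ G (x0 + a • z) (cv i)) z := fun i z hz =>
      (((hG _ (hmem a haI z hz)).fderiv_right (m := 1) (by norm_num)).comp z
        (contDiffAt_const.add (contDiffAt_id.const_smul a))).clm_apply contDiffAt_const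
    have hgd : ∀ (i : Fin n) (z : E n), ‖z‖ ≤ 1 →
        fderiv ℝ (fun z => fderiv ℝ G (x0 + a • z) (cv i)) z (cv i) =
          a * fderiv ℝ (fderiv ℝ G) (x0 + a • z) (cv i) (cv i) := by
      intro i z hz
      have h2 : HasFDerivAt (fderiv ℝ G) (fderiv ℝ (fderiv ℝ G) (x0 + a • z)) (x0 + a • z) :=
        (((hG _ (hmem a haI z hz)).fderiv_right (m := 1) (by norm_num)).differentiableAt
          (by simp)).hasFDerivAt
      have h3 : HasFDerivAt (fun z : E n => x0 + a • z) (a • ContinuousLinearMap.id ℝ (E n)) z :=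
        ((hasFDerivAt_id z).const_smul a).const_add x0
      rw [HasFDerivAt.fderiv (f := fun z => fderiv ℝ G (x0 + a • z) (cv i))
        ((h2.comp z h3).clm_apply (hasFDerivAt_const (cv i) z))]
      simp
    have hzc : ∀ (i : Fin n) (z : E n), ‖z‖ ≤ 1 →
        ContinuousAt (fun z => z i * fderiv ℝ G (x0 + a • z) (cv i)) z := fun i z hz =>
      (contDiff_coord i).continuous.continuousAt.mul (hg i z hz).continuousAt
    have e1 : ∀ i : Fin n, ∫ z, bump 3 z * (z i * fderiv ℝ G (x0 + a • z) (cv i)) =
        a / 8 * ∫ z, bump 4 z * fderiv ℝ (fderiv ℝ G) (x0 + a • z) (cv i) (cv i) := by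
      intro i
      have h := ibp_bump 2 i (hg i)
      have e : ∫ z, bump 4 z * fderiv ℝ (fun z => fderiv ℝ G (x0 + a • z) (cv i)) z (cv i) =
          a * ∫ z, bump 4 z * fderiv ℝ (fderiv ℝ G) (x0 + a • z) (cv i) (cv i) := by
        rw [← integral_const_mul]
        refine integral_congr_ae (Eventually.of_forall fun z => ?_)
        simp only
        rcases le_or_gt ‖z‖ 1 with hz | hz
        · rw [hgd i z hz]; ring
        · rw [bump_out (by norm_num) hz.le]; ring
      rw [e] at h
      norm_num at h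
      linarith
    have h2c : ∀ (i : Fin n) (z : E n), ‖z‖ ≤ 1 →
        ContinuousAt (fun z => fderiv ℝ (fderiv ℝ G) (x0 + a • z) (cv i) (cv i)) z := by
      intro i z hz
      have h : ContinuousAt (fderiv ℝ (fderiv ℝ G)) (x0 + a • z) :=
        (((hG _ (hmem a haI z hz)).fderiv_right (m := 1) (by norm_num)).fderiv_right
          (m := 0) (by norm_num)).continuousAt
      exact ((ContinuousAt.comp (g := fderiv ℝ (fderiv ℝ G)) (f := fun z : E n => x0 + a • z) h
        (by fun_prop)).clm_apply
        continuousAt_const).clm_apply continuousAt_const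
    calc ∫ z, bump 3 z * fderiv ℝ G (x0 + a • z) z
        = ∑ i, ∫ z, bump 3 z * (z i * fderiv ℝ G (x0 + a • z) (cv i)) := by
          rw [← integral_finsetSum _ fun i _ => integrable_cut (by norm_num) (hzc i)]
          refine integral_congr_ae (Eventually.of_forall fun z => ?_)
          simp only [← Finset.mul_sum, sum_lin]
      _ = a / 8 * ∑ i, ∫ z, bump 4 z * fderiv ℝ (fderiv ℝ G) (x0 + a • z) (cv i) (cv i) := by
          simp only [e1, Finset.mul_sum]
      _ ≤ a / 8 * (δ * mass n 4) := by
          refine mul_le_mul_of_nonneg_left ?_ (by linarith [ha.1])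
          rw [← integral_finsetSum _ fun i _ => integrable_cut (by norm_num) (h2c i), mass,
            ← integral_const_mul]
          refine integral_mono (integrable_finsetSum _ fun i _ => integrable_cut (by norm_num)
            (h2c i)) ((integrable_bump (by norm_num)).const_mul δ) fun z => ?_
          simp only [← Finset.mul_sum, ← lap_eq_sum]
          rcases le_or_gt ‖z‖ 1 with hz | hz
          · exact (mul_le_mul_of_nonneg_left (hlap _ (hmem a haI z hz)) (bump_nonneg 4 z)).trans_eq
              (mul_comm _ _)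
          · rw [bump_out (by norm_num) hz.le]; simp
      _ = δ * mass n 4 * a / 8 := by ring
  have hanti : AntitoneOn (fun a => Φ a - δ * mass n 4 / 16 * a ^ 2) (Icc 0 ρ) := by
    refine antitoneOn_of_deriv_nonpos (convex_Icc 0 ρ)
      (hcont.sub (by fun_prop)) ?_ ?_
    · intro a ha
      rw [interior_Icc] at ha
      obtain ⟨d, hd, -⟩ := hder a ha
      exact (hd.sub ((hasDerivAt_pow 2 a).const_mul _)).differentiableAt.differentiableWithinAt
    · intro a ha
      rw [interior_Icc] at ha
      obtain ⟨d, hd, hd'⟩ := hder a ha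
      rw [HasDerivAt.deriv (f := fun a => Φ a - δ * mass n 4 / 16 * a ^ 2)
        (hd.sub ((hasDerivAt_pow 2 a).const_mul _))]
      norm_num
      linarith
  have h := hanti ⟨le_rfl, hρ.le⟩ ⟨hρ.le, le_rfl⟩ hρ.le
  have h0 : Φ 0 = mass n 3 * G x0 := by
    simp only [hΦ, zero_smul, add_zero, mass, integral_mul_const]
  simp only [h0] at h
  simp only [hΦ] at h
  nlinarith

theorem integral_affine (f : E n → ℝ) (c : E n) {s : ℝ} (hs : 0 < s) :
    ∫ w, f (c + s • w) = (s ^ n)⁻¹ * ∫ z, f z := by
  rw [Measure.integral_comp_smul volume (fun w => f (c + w)) s, integral_add_left_eq_self f c,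
    finrank_euclideanSpace_fin, smul_eq_mul, abs_of_pos (by positivity)]

/-- Average over a ball, in unit-ball coordinates. -/
def avg (u : E n → ℝ) (x : E n) (ρ : ℝ) : ℝ :=
  ∫ z in Metric.closedBall (0 : E n) 1, u (x + ρ • z)

theorem avg_nonneg {u : E n → ℝ} (hu : Super u) (x : E n) (ρ : ℝ) : 0 ≤ avg u x ρ :=
  setIntegral_nonneg measurableSet_closedBall fun z _ => (hu.pos _).le

theorem integrableOn_avg {u : E n → ℝ} (hu : Super u) (x : E n) (ρ : ℝ) :
    IntegrableOn (fun z => u (x + ρ • z)) (Metric.closedBall (0 : E n) 1) :=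
  (hu.cont.comp (by fun_prop)).continuousOn.integrableOn_compact (isCompact_closedBall _ _)

/-- Weak Harnack inequality for superharmonic functions. -/
theorem weak_harnack {u : E n → ℝ} (hu : Super u) {x p : E n} {ρ : ℝ} (hρ : 0 < ρ)
    (hxp : ‖x - p‖ ≤ 3 * ρ) (hp : 8 * ρ < ‖p‖) :
    avg u x ρ ≤ (64 / 27 * 8 ^ n * mass n 3) * u p := by
  have hne : ∀ y ∈ Metric.closedBall p (8 * ρ), y ≠ 0 := fun y hy h => by
    rw [h, Metric.mem_closedBall, dist_zero_left] at hy; linarith
  have hm := mean_le (G := u) (x0 := p) (ρ := 8 * ρ) (δ := 0) (by linarith)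
    (fun y hy => hu.at' (hne y hy)) (fun y hy => (hu.lap y (hne y hy)).le)
  set c := (8 * ρ)⁻¹ • (x - p) with hc
  set f : E n → ℝ := fun z => bump 3 z * u (p + (8 * ρ) • z) with hf
  have hfs : Integrable fun w => f (c + (1 / 8 : ℝ) • w) :=
    ((integrable_cut (by norm_num) fun z _ => (hu.cont.comp
      (by fun_prop : Continuous fun z : E n => p + (8 * ρ) • z)).continuousAt).comp_add_left
      c).comp_smul (by norm_num : (1 / 8 : ℝ) ≠ 0)
  have h1 : 27 / 64 * avg u x ρ ≤ ∫ w, f (c + (1 / 8 : ℝ) • w) := by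
    refine le_trans ?_ (setIntegral_le_integral (s := Metric.closedBall (0 : E n) 1) hfs
      (Eventually.of_forall fun w => mul_nonneg (bump_nonneg 3 _) (hu.pos _).le))
    rw [avg, ← integral_const_mul]
    refine setIntegral_mono_on ((integrableOn_avg hu x ρ).const_mul _) hfs.integrableOn
      measurableSet_closedBall fun w hw => ?_
    rw [mem_closedBall_zero_iff] at hw
    have e : p + (8 * ρ) • (c + (1 / 8 : ℝ) • w) = x + ρ • w := by
      rw [smul_add, hc, smul_smul, smul_smul, mul_inv_cancel₀ (by positivity), one_smul,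
        show 8 * ρ * (1 / 8) = ρ by ring]
      abel
    simp only [hf, e]
    refine mul_le_mul_of_nonneg_right ?_ (hu.pos _).le
    have hn : ‖c + (1 / 8 : ℝ) • w‖ ≤ 1 / 2 := by
      refine (norm_add_le _ _).trans ?_
      rw [hc, norm_smul, norm_smul, norm_inv, Real.norm_eq_abs, Real.norm_eq_abs,
        abs_of_pos (by positivity), abs_of_pos (by norm_num : (0:ℝ) < 1/8)]
      have : (8 * ρ)⁻¹ * ‖x - p‖ ≤ 3 / 8 := by
        rw [inv_mul_le_iff₀ (by positivity)]; linarith
      linarith
    rw [bump, show (27 / 64 : ℝ) = (3 / 4) ^ 3 by norm_num]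
    refine pow_le_pow_left₀ (by norm_num) (le_trans ?_ (le_max_right _ _)) 3
    nlinarith [norm_nonneg (c + (1 / 8 : ℝ) • w)]
  rw [integral_affine f c (by norm_num), one_div, inv_pow, inv_inv] at h1
  have h2 : (8 : ℝ) ^ n * ∫ z, f z ≤ 8 ^ n * (mass n 3 * u p) :=
    mul_le_mul_of_nonneg_left (by simpa [hf] using hm) (by positivity)
  nlinarith

/-- The radial derivative is bounded below by averages, in the mean. -/
theorem radial_mean {u : E n → ℝ} (hu : Super u) {x0 : E n} {ρ : ℝ} (hρ : 0 < ρ)
    (hx : ‖x0‖ = 16 * ρ) :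
    -(103 * n) * avg u x0 ρ ≤
      ∫ z, bump 3 z * fderiv ℝ u (x0 + ρ • z) (x0 + ρ • z) := by
  have hne : ∀ z : E n, ‖z‖ ≤ 1 → x0 + ρ • z ≠ 0 := fun z hz h => by
    have := mem_ball_affine (x0 := x0) hρ.le le_rfl hz
    rw [h, Metric.mem_closedBall, dist_zero_left] at this; linarith
  set y : E n → E n := fun z => x0 + ρ • z with hy
  have hyc : ∀ i : Fin n, ContDiff ℝ 2 fun z => y z i := fun i =>
    (contDiff_coord i).comp (contDiff_const.add (contDiff_id.const_smul ρ))
  have hg : ∀ z : E n, ‖z‖ ≤ 1 → ContDiffAt ℝ 2 (fun z => u (y z)) z := fun z hz =>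
    (hu.at' (hne z hz)).comp z (contDiffAt_const.add (contDiffAt_id.const_smul ρ))
  have hDu : ∀ (i : Fin n) (z : E n), ‖z‖ ≤ 1 →
      ContinuousAt (fun z => y z i * fderiv ℝ u (y z) (cv i)) z := fun i z hz =>
    (hyc i).continuous.continuousAt.mul ((ContinuousAt.comp (g := fderiv ℝ u) (f := y)
      ((hu.at' (hne z hz)).fderiv_right (m := 1) (by norm_num)).continuousAt
      (by fun_prop)).clm_apply continuousAt_const)
  have key : ∀ i : Fin n, -(103 * avg u x0 ρ) ≤
      ∫ z, bump 3 z * (y z i * fderiv ℝ u (y z) (cv i)) := by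
    intro i
    have h := ibp_bump 1 i (g := fun z => y z i * u (y z)) fun z hz =>
      ((hyc i).contDiffAt.mul (hg z hz)).of_le (by norm_num)
    have e : ∫ z, bump 3 z * fderiv ℝ (fun z => y z i * u (y z)) z (cv i) =
        ∫ z, (ρ * (bump 3 z * (y z i * fderiv ℝ u (y z) (cv i))) + ρ * (bump 3 z * u (y z))) := by
      refine integral_congr_ae (Eventually.of_forall fun z => ?_)
      simp only
      rcases le_or_gt ‖z‖ 1 with hz | hz
      · have h3 : HasFDerivAt y (ρ • ContinuousLinearMap.id ℝ (E n)) z :=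
          ((hasFDerivAt_id z).const_smul ρ).const_add x0
        have h4 : HasFDerivAt (fun z => u (y z)) _ z :=
          ((hu.at' (hne z hz)).differentiableAt (by simp)).hasFDerivAt.comp z h3
        have h5 : HasFDerivAt (fun z => y z i) _ z :=
          (EuclideanSpace.proj (𝕜 := ℝ) i).hasFDerivAt.comp z h3
        rw [HasFDerivAt.fderiv (f := fun z => y z i * u (y z)) (h5.mul h4)]
        simp [cv_apply, y]
        ring
      · simp [bump_out (show 3 ≠ 0 by norm_num) hz.le]
    have hu3 : Integrable fun z => bump 3 z * u (y z) := integrable_cut (by norm_num)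
      fun z _ => (hu.cont.comp (by fun_prop)).continuousAt
    rw [e, integral_add ((integrable_cut (by norm_num) (hDu i)).const_mul ρ) (hu3.const_mul ρ),
      integral_const_mul, integral_const_mul] at h
    have hle1 : ∫ z, bump 3 z * u (y z) ≤ avg u x0 ρ := by
      rw [avg, ← integral_indicator measurableSet_closedBall]
      refine integral_mono hu3 ((integrableOn_avg hu x0 ρ).integrable_indicator
        measurableSet_closedBall) fun z => ?_
      rcases le_or_gt ‖z‖ 1 with hz | hz
      · rw [indicator_of_mem (mem_closedBall_zero_iff.2 hz)]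
        exact mul_le_of_le_one_left (hu.pos _).le (bump_le_one 3 z)
      · simp [bump_out (show 3 ≠ 0 by norm_num) hz.le, mem_closedBall_zero_iff.not.2 (not_le.2 hz)]
    have hc2 : ∀ z : E n, ‖z‖ ≤ 1 → ContinuousAt (fun z => z i * (y z i * u (y z))) z :=
      fun z _ => ((contDiff_coord i).continuous.mul ((hyc i).continuous.mul
        (hu.cont.comp (by fun_prop)))).continuousAt
    have hle2 : -(17 * ρ) * avg u x0 ρ ≤ ∫ z, bump 2 z * (z i * (y z i * u (y z))) := by
      rw [avg, ← integral_const_mul, ← integral_indicator measurableSet_closedBall]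
      refine integral_mono ((MeasureTheory.IntegrableOn.integrable_indicator
        ((integrableOn_avg hu x0 ρ).const_mul _))
        measurableSet_closedBall) (integrable_cut (by norm_num) hc2) fun z => ?_
      rcases le_or_gt ‖z‖ 1 with hz | hz
      · rw [indicator_of_mem (mem_closedBall_zero_iff.2 hz)]
        have hzi : |z i| ≤ 1 := by
          rw [← inner_cv z i]
          exact (abs_real_inner_le_norm _ _).trans (by rw [norm_cv, mul_one]; exact hz)
        have hyi : |y z i| ≤ 17 * ρ := by
          rw [← inner_cv (y z) i]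
          refine (abs_real_inner_le_norm _ _).trans ?_
          rw [norm_cv, mul_one]
          refine (norm_add_le _ _).trans ?_
          rw [hx, norm_smul, Real.norm_eq_abs, abs_of_pos hρ]
          nlinarith
        have habs : |bump 2 z * (z i * (y z i * u (y z)))| ≤ 1 * (1 * (17 * ρ * u (y z))) := by
          rw [abs_mul, abs_mul, abs_mul, abs_of_nonneg (bump_nonneg 2 z),
            abs_of_pos (hu.pos (y z))]
          have := (hu.pos (y z)).le
          gcongr
          exact bump_le_one 2 z
        have := (abs_le.1 habs).1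
        linarith
      · simp [bump_out (show 2 ≠ 0 by norm_num) hz.le, mem_closedBall_zero_iff.not.2 (not_le.2 hz)]
    norm_num at h
    nlinarith
  calc -(103 * (n : ℝ)) * avg u x0 ρ = ∑ _i : Fin n, -(103 * avg u x0 ρ) := by simp; ring
    _ ≤ ∑ i, ∫ z, bump 3 z * (y z i * fderiv ℝ u (y z) (cv i)) :=
        Finset.sum_le_sum fun i _ => key i
    _ = ∫ z, bump 3 z * fderiv ℝ u (y z) (y z) := by
        rw [← integral_finsetSum _ fun i _ => integrable_cut (by norm_num) (hDu i)]
        refine integral_congr_ae (Eventually.of_forall fun z => ?_)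
        simp only [← Finset.mul_sum, sum_lin]

end Vale.Agent.P100L
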