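import Vale.Agent.P100H.Bootstrap

/-!
# P100, the line p = 1: calculus, dilation quotients, minimum principle for limits
-/

noncomputable section

namespace Vale.Agent.P100L

open Filter Topology Set Vale.Agent.P100H

variable {n : ℕ}

/-- Multiplication by a power of the squared norm. -/
def pmul (e : ℝ) (f : E n → ℝ) (x : E n) : ℝ := (‖x‖ ^ 2) ^ e * f x

theorem contDiffAt_pmul (e : ℝ) {f : E n → ℝ} {x : E n} (hx : x ≠ 0)
    (hf : ContDiffAt ℝ 2 f x) : ContDiffAt ℝ 2 (pmul e f) x :=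
  ((contDiff_norm_sq ℝ).contDiffAt.rpow_const_of_ne (sq_pos_of_ne hx).ne').mul hf

theorem lap_pmul (e : ℝ) {f : E n → ℝ} {x : E n} (hx : x ≠ 0) (hf : ContDiffAt ℝ 2 f x) :
    Laplacian.laplacian (pmul e f) x = (‖x‖ ^ 2) ^ e *
      (Laplacian.laplacian f x + 4 * e / ‖x‖ ^ 2 * gen (e + Vale.Agent.P100H.hf n) f x) := by
  rw [lap_lines (contDiffAt_pmul e hx hf)]
  set Q := ‖x‖ ^ 2 with hQdef
  have hQ : 0 < Q := sq_pos_of_ne hx
  set H := fderiv ℝ (fderiv ℝ f) x with hH
  set D := fderiv ℝ f x with hD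
  have hpow1 : Q ^ (e - 1) = Q ^ e / Q := by rw [Real.rpow_sub hQ, Real.rpow_one]
  have hpow2 : Q ^ (e - 1 - 1) = Q ^ e / Q / Q := by
    rw [Real.rpow_sub hQ, Real.rpow_one, hpow1]
  have hterm : ∀ i, deriv (deriv fun t : ℝ => pmul e f (x + t • cv i)) 0 =
      Q ^ e * (H (cv i) (cv i) + 4 * e / Q * (x i * D (cv i)) +
        4 * e * (e - 1) / Q ^ 2 * f x * x i ^ 2 + 2 * e / Q * f x) := by
    intro i
    set a := x i
    set q : ℝ → ℝ := fun t => Q + 2 * t * a + t ^ 2 with hqdef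
    have hq : ∀ t, HasDerivAt q (2 * a + 2 * t) t := fun t => by
      refine (((((hasDerivAt_id t).const_mul 2).mul_const a).const_add Q).add
        (hasDerivAt_pow 2 t)).congr_deriv ?_
      simp
    have hq0 : q 0 = Q := by simp [hqdef]
    have hq00 : q 0 ≠ 0 := by rw [hq0]; exact hQ.ne'
    have hq' : HasDerivAt (fun t : ℝ => 2 * a + 2 * t) 2 0 := by
      simpa using ((hasDerivAt_id (0 : ℝ)).const_mul 2).const_add (2 * a)
    have hev : ∀ᶠ t in 𝓝 (0 : ℝ), q t ≠ 0 := (hq 0).continuousAt.eventually_ne hq00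
    have heq : (fun t : ℝ => pmul e f (x + t • cv i)) = fun t => q t ^ e * f (x + t • cv i) := by
      funext t
      simp only [pmul, norm_sq_line, hqdef, hQdef, a]
    rw [heq]
    have hP : ∀ᶠ t in 𝓝 (0 : ℝ), HasDerivAt (fun t => q t ^ e)
        ((2 * a + 2 * t) * e * q t ^ (e - 1)) t := by
      filter_upwards [hev] with t ht
      exact (hq t).rpow_const (Or.inl ht)
    have hP2 := (hq'.mul_const e).mul ((hq 0).rpow_const (p := e - 1) (Or.inl hq00))
    rw [line_second (γ := fun t : ℝ => x + t • cv i) (γ' := fun _ => cv i) (γ2 := 0) (f := f)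
      (y := x) (by simp) hP hP2 (Eventually.of_forall fun t => hasDerivAt_cvline x i t)
      (hasDerivAt_const 0 _) hf]
    simp only [hq0, mul_zero, add_zero, map_zero, ← hD, ← hH]
    rw [hpow1, hpow2]
    field_simp
    ring
  simp only [hterm, ← Finset.mul_sum, Finset.sum_add_distrib, sum_lin, sum_sq,
    Finset.sum_const, Finset.card_univ, Fintype.card_fin, nsmul_eq_mul, ← hQdef]
  rw [lap_eq_sum f x, ← hH, gen, ← hD, Vale.Agent.P100H.hf]
  field_simp
  ring

/-- The Kelvin transform with exponent `(n-2)/2` commutes with the Laplacian up to `s^2`. -/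
theorem lap_kel_hf {L : ℝ} (hL : 0 < L) {f : E n → ℝ} (hf : ContDiffOn ℝ 2 f {0}ᶜ) {x : E n}
    (hx : x ≠ 0) :
    Laplacian.laplacian (kel L (Vale.Agent.P100H.hf n) f) x =
      (L / ‖x‖ ^ 2) ^ (Vale.Agent.P100H.hf n) * (L / ‖x‖ ^ 2) ^ 2 * Laplacian.laplacian f (inv L x) := by
  have hQ := sq_pos_of_ne hx
  rw [lap_kel hL hf hx, show 2 * Vale.Agent.P100H.hf n - ((n : ℝ) - 2) = 0 by rw [Vale.Agent.P100H.hf]; ring,
    Real.div_rpow hL.le hQ.le, Real.rpow_neg hQ.le, div_pow]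
  ring

/-- A dilation quotient. -/
def quot (θ : ℝ) (f : E n → ℝ) (h : ℝ) (x : E n) : ℝ := (h ^ θ * f (h • x) - f x) / (h - 1)

theorem contDiffAt_quot (θ : ℝ) {f : E n → ℝ} (hf : ContDiffOn ℝ 2 f {0}ᶜ) {h : ℝ} (hh : 0 < h)
    {x : E n} (hx : x ≠ 0) : ContDiffAt ℝ 2 (quot θ f h) x :=
  (((contDiffAt_const.mul (((hf.contDiffAt (isOpen_compl_singleton.mem_nhds
    (smul_ne_zero hh.ne' hx)))).comp x (contDiffAt_id.const_smul h)))).sub
      (hf.contDiffAt (isOpen_compl_singleton.mem_nhds hx))).div_const _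

theorem lap_smul_arg {f : E n → ℝ} (h : ℝ) {x : E n} (hf : ContDiffAt ℝ 2 f (h • x)) :
    Laplacian.laplacian (fun z => f (h • z)) x = h ^ 2 * Laplacian.laplacian f (h • x) := by
  have hc : ContDiffAt ℝ 2 (fun z => f (h • z)) x := hf.comp x (contDiffAt_id.const_smul h)
  rw [lap_lines hc, lap_eq_sum f, Finset.mul_sum]
  refine Finset.sum_congr rfl fun i _ => ?_
  have e : (fun t : ℝ => f (h • (x + t • cv i))) = fun t => 1 * f (h • x + t • (h • cv i)) := by
    funext t; rw [smul_add, smul_comm h t, one_mul]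
  have hγ : ∀ t : ℝ, HasDerivAt (fun t : ℝ => h • x + t • (h • cv i)) (h • cv i) t := fun t => by
    simpa using ((hasDerivAt_id t).smul_const (h • cv i)).const_add (h • x)
  rw [e, line_second (P' := fun _ => 0) (P2 := 0) (γ2 := 0) (f := f) (y := h • x) (by simp)
    (Eventually.of_forall fun t => hasDerivAt_const t 1) (hasDerivAt_const 0 0)
    (Eventually.of_forall hγ) (hasDerivAt_const 0 _) hf]
  simp only [map_smul, smul_apply, smul_eq_mul, map_zero]
  ring

theorem lap_quot (θ : ℝ) {f : E n → ℝ} (hf : ContDiffOn ℝ 2 f {0}ᶜ) {h : ℝ} (hh : 0 < h)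
    {x : E n} (hx : x ≠ 0) :
    Laplacian.laplacian (quot θ f h) x =
      (h ^ θ * (h ^ 2 * Laplacian.laplacian f (h • x)) - Laplacian.laplacian f x) / (h - 1) := by
  have hfx := hf.contDiffAt (isOpen_compl_singleton.mem_nhds hx)
  have hfh := hf.contDiffAt (isOpen_compl_singleton.mem_nhds (smul_ne_zero hh.ne' hx))
  have hg : ContDiffAt ℝ 2 (fun z => f (h • z)) x := hfh.comp x (contDiffAt_id.const_smul h)
  have h1 : ContDiffAt ℝ 2 ((h ^ θ / (h - 1)) • fun z => f (h • z)) x :=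
    hg.const_smul (h ^ θ / (h - 1))
  have h2 : ContDiffAt ℝ 2 ((-(1 / (h - 1))) • f) x := hfx.const_smul (-(1 / (h - 1)))
  have e : quot θ f h = (h ^ θ / (h - 1)) • (fun z => f (h • z)) + (-(1 / (h - 1))) • f := by
    funext z; simp [quot]; ring
  rw [e, h1.laplacian_add h2, InnerProductSpace.laplacian_smul _ hg,
    InnerProductSpace.laplacian_smul _ hfx, lap_smul_arg h hfh]
  simp only [smul_eq_mul]
  ring

theorem continuousOn_gen {f : E n → ℝ} (hf : ContDiffOn ℝ 2 f {0}ᶜ) (θ : ℝ) {x : E n}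
    (hx : x ≠ 0) : ContinuousAt (gen θ f) x := by
  have h := hf.contDiffAt (isOpen_compl_singleton.mem_nhds hx)
  exact (continuousAt_const.mul h.continuousAt).add
    (((h.fderiv_right (m := 1) (by norm_num)).continuousAt).clm_apply continuousAt_id)

/-- Dilation quotients converge to the infinitesimal generator, uniformly on compact sets. -/
theorem quot_tendsto (θ : ℝ) {f : E n → ℝ} (hf : ContDiffOn ℝ 2 f {0}ᶜ) {K : Set (E n)}
    (hK : IsCompact K) (h0 : ∀ x ∈ K, x ≠ 0) {ε : ℝ} (hε : 0 < ε) :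
    ∀ᶠ h in 𝓝[>] (1 : ℝ), ∀ x ∈ K, |quot θ f h x - gen θ f x| < ε := by
  set G : ℝ → E n → ℝ := fun ξ x => ξ ^ (θ - 1) * gen θ f (ξ • x) with hG
  have hev : ∀ᶠ ξ in 𝓝 (1 : ℝ), ∀ x ∈ K, 0 < ξ ∧ |G ξ x - gen θ f x| < ε := by
    refine hK.eventually_forall_of_forall_eventually fun x hx => ?_
    have hx0 := h0 x hx
    have h1 : ContinuousAt (fun w : ℝ × E n => G w.1 w.2 - gen θ f w.2) (1, x) := by
      refine ((continuousAt_fst.rpow_const (Or.inl one_ne_zero)).mul ?_).sub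
        (ContinuousAt.comp (g := gen θ f) (f := fun w : ℝ × E n => w.2)
          (continuousOn_gen hf θ hx0) continuousAt_snd)
      exact ContinuousAt.comp (g := gen θ f) (f := fun w : ℝ × E n => w.1 • w.2)
        (continuousOn_gen hf θ (by simpa using hx0)) (by fun_prop)
    have h2 := h1.abs.eventually (gt_mem_nhds (show |G 1 x - gen θ f x| < ε by simp [hG, hε]))
    filter_upwards [h2, continuousAt_fst.eventually (lt_mem_nhds (zero_lt_one' ℝ))] with w hw hw'
    exact ⟨hw', hw⟩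
  obtain ⟨δ, hδ, hδ'⟩ := Metric.eventually_nhds_iff.1 hev
  filter_upwards [Ioo_mem_nhdsGT (show (1 : ℝ) < 1 + δ by linarith)] with h hh x hx
  have hξ : ∀ ξ ∈ Icc 1 h, 0 < ξ ∧ |G ξ x - gen θ f x| < ε := fun ξ hξ =>
    hδ' (y := ξ) (by rw [Real.dist_eq, abs_of_nonneg (by linarith [hξ.1])]
                     linarith [hξ.2, hh.2]) x hx
  have hd : ∀ ξ ∈ Icc 1 h, HasDerivAt (fun ξ : ℝ => ξ ^ θ * f (ξ • x)) (G ξ x) ξ := by
    intro ξ hξ'
    have hξ0 : 0 < ξ := (hξ ξ hξ').1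
    have hne : ξ • x ≠ 0 := smul_ne_zero hξ0.ne' (h0 x hx)
    have h1 : HasDerivAt (fun ξ : ℝ => f (ξ • x)) (fderiv ℝ f (ξ • x) x) ξ :=
      ((hf.contDiffAt (isOpen_compl_singleton.mem_nhds hne)).differentiableAt
        (by simp)).hasFDerivAt.comp_hasDerivAt ξ
        (by simpa using (hasDerivAt_id ξ).smul_const x)
    refine ((Real.hasDerivAt_rpow_const (p := θ) (Or.inl hξ0.ne')).mul h1).congr_deriv ?_
    simp only [hG, gen, map_smul, smul_eq_mul, Real.rpow_sub hξ0, Real.rpow_one]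
    field_simp
  obtain ⟨ξ, hξI, hslope⟩ := exists_hasDerivAt_eq_slope (fun ξ : ℝ => ξ ^ θ * f (ξ • x))
    (fun ξ => G ξ x) hh.1 (fun ξ hξ => (hd ξ hξ).continuousAt.continuousWithinAt)
    (fun ξ hξ => hd ξ (Ioo_subset_Icc_self hξ))
  have e : quot θ f h x = G ξ x := by
    rw [hslope, quot, Real.one_rpow, one_smul, one_mul]
  rw [e]
  exact (hξ ξ (Ioo_subset_Icc_self hξI)).2

/-- `Z` is, off the origin, a locally uniform limit of C² functions with Laplacians tending
to `F`. -/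
def Approx (Z F : E n → ℝ) : Prop :=
  ∀ K : Set (E n), IsCompact K → (∀ x ∈ K, x ≠ 0) → ∀ ε > 0, ∃ G : E n → ℝ,
    (∀ x, x ≠ 0 → ContDiffAt ℝ 2 G x) ∧
      ∀ x ∈ K, |G x - Z x| < ε ∧ |Laplacian.laplacian G x - F x| < ε

/-- Minimum principle for limits of supersolutions. -/
theorem minLim (hn : 3 ≤ n) {K U : Set (E n)} {Z F : E n → ℝ} (hA : Approx Z F) (hK : IsCompact K)
    (h0 : ∀ x ∈ K, x ≠ 0) (hU : IsOpen U) (hUK : U ⊆ K) (x0 : E n) (c d : ℝ)
    (hF : ∀ x ∈ U, F x + 2 * n * c ≤ 0)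
    (hb : ∀ x ∈ K, x ∉ U → 0 ≤ Z x + c * ‖x - x0‖ ^ 2 + d) :
    ∀ x ∈ K, 0 ≤ Z x + c * ‖x - x0‖ ^ 2 + d := by
  have hn' : (0 : ℝ) < n := by exact_mod_cast (show 0 < n by omega)
  obtain ⟨R, hR⟩ := hK.exists_bound_of_continuousOn (f := fun x : E n => ‖x - x0‖ ^ 2)
    (by fun_prop)
  intro x hx
  refine le_of_forall_pos_le_add fun η hη => ?_
  set b := max R 0
  set ε := η / (2 + b / n + 1) with hε
  have hb0 : 0 ≤ b := le_max_right _ _
  have hε0 : 0 < ε := by positivity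
  obtain ⟨G, hG, hGK⟩ := hA K hK h0 ε hε0
  set a := c - ε / n with ha
  have hq : ∀ z : E n, ContDiffAt ℝ 2 (fun y : E n => ‖y - x0‖ ^ 2) z := fun z =>
    ((contDiff_norm_sq ℝ).comp (contDiff_id.sub contDiff_const)).contDiffAt
  have h := minP (f := fun z => G z + a * ‖z - x0‖ ^ 2 + (d + ε + ε * (b / n))) hK hU hUK
    (fun z hz => ((((hG z (h0 z hz)).continuousAt).add
      (by fun_prop)).add continuousAt_const).continuousWithinAt)
    (fun z hz => (((hG z (h0 z (hUK hz))).add (contDiffAt_const.mul (hq z))).add contDiffAt_const))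
    (fun z hz => by
      have hzc := hG z (h0 z (hUK hz))
      have hks : ContDiffAt ℝ 2 (a • fun y : E n => ‖y - x0‖ ^ 2) z := (hq z).const_smul a
      have e : (fun z : E n => G z + a * ‖z - x0‖ ^ 2 + (d + ε + ε * (b / n))) =
          G + a • (fun y : E n => ‖y - x0‖ ^ 2) + fun _ => (d + ε + ε * (b / n)) := by
        funext w; simp
      have hfg : ContDiffAt ℝ 2 (G + a • fun y : E n => ‖y - x0‖ ^ 2) z := hzc.add hks
      rw [e, hfg.laplacian_add contDiffAt_const, hzc.laplacian_add hks,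
        InnerProductSpace.laplacian_smul a (hq z), lap_sq,
        lap_eq_sum (fun _ : E n => (d + ε + ε * (b / n)))]
      simp only [smul_eq_mul, fderiv_fun_const, Pi.zero_def, fderiv_const_apply]
      have h1 := (abs_lt.1 (hGK z (hUK hz)).2).2
      have h2 := hF z hz
      have h3 : a * (2 * n) = 2 * n * c - 2 * ε := by rw [ha]; field_simp
      simp; linarith)
    (fun z hz hzU => by
      have h1 := (abs_lt.1 (hGK z hz).1).1
      have h2 := hb z hz hzU
      have h3 : ε / n * ‖z - x0‖ ^ 2 ≤ ε * (b / n) := by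
        rw [show ε * (b / n) = ε / n * b by ring]
        refine mul_le_mul_of_nonneg_left ?_ (by positivity)
        exact ((le_abs_self _).trans (hR z hz)).trans (le_max_left _ _)
      rw [ha, sub_mul]
      linarith)
    x hx
  have h1 := (abs_lt.1 (hGK x hx).1).2
  have h3 : 0 ≤ ε / n * ‖x - x0‖ ^ 2 := by positivity
  have h4 : ε * (2 + b / n + 1) = η := by rw [hε]; field_simp
  rw [ha, sub_mul] at h
  nlinarith

end Vale.Agent.P100L
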