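import Vale.Agent.P100L.Linear

/-!
# P100, the line p = 1: moving spheres with exponent (n-4-A)/2 and nonexistence
-/

noncomputable section

namespace Vale.Agent.P100L

open Filter Topology Set Vale.Agent.P100H

variable {n : ℕ}

/-- The weighted gap. -/
def Wf (L A : ℝ) (u : E n → ℝ) (x : E n) : ℝ :=
  pmul (-(kk A)) u x - L ^ (-(kk A)) * kel L (hf n) u x

theorem Wf_eq {L A : ℝ} (hL : 0 < L) (u : E n → ℝ) {x : E n} (hx : x ≠ 0) :
    Wf L A u x = (‖x‖ ^ 2) ^ (-(kk A)) * (u x - kel L (th1 n A) u x) := by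
  have hQ := sq_pos_of_ne hx
  simp only [Wf, pmul, kel, th1]
  rw [show -(hf n) = -(kk A) + -(hf n - kk A) by ring, Real.rpow_add hQ,
    show hf n - kk A = hf n + -(kk A) by ring, Real.rpow_add hL]
  ring

theorem contDiffAt_Wf {L A : ℝ} (hL : 0 < L) {u : E n → ℝ} (hu : Super u) {x : E n} (hx : x ≠ 0) :
    ContDiffAt ℝ 2 (Wf L A u) x :=
  (contDiffAt_pmul _ hx (hu.at' hx)).sub (contDiffAt_const.mul (contDiffAt_kel hL hu.diff hx))

theorem lap_Wf {L A : ℝ} (hL : 0 < L) {u v : E n → ℝ} (hu : Super u) (he : Eqn A 1 u v)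
    {x : E n} (hx : x ≠ 0) :
    Laplacian.laplacian (Wf L A u) x =
      -((‖x‖ ^ 2) ^ (-(kk A)) / ‖x‖ ^ 2 * Zf L A u v x) := by
  have hQ := sq_pos_of_ne hx
  have c1 := contDiffAt_pmul (-(kk A)) hx (hu.at' hx)
  have c2 : ContDiffAt ℝ 2 (kel L (hf n) u) x := contDiffAt_kel hL hu.diff hx
  have c2' : ContDiffAt ℝ 2 ((-(L ^ (-(kk A)))) • kel L (hf n) u) x :=
    c2.const_smul (-(L ^ (-(kk A))))
  have e : Wf L A u = pmul (-(kk A)) u + (-(L ^ (-(kk A)))) • kel L (hf n) u := by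
    funext z; simp [Wf]; ring
  rw [e, c1.laplacian_add c2', InnerProductSpace.laplacian_smul _ c2, lap_pmul _ hx (hu.at' hx),
    lap_kel_hf hL hu.diff hx, smul_eq_mul, show -(kk A) + hf n = th1 n A by rw [th1]; ring]
  set s := L / ‖x‖ ^ 2 with hs
  have hs0 : 0 < s := by positivity
  have hny : ‖inv L x‖ = s * ‖x‖ := by
    rw [inv, norm_smul, Real.norm_eq_abs, abs_of_pos hs0]
  have h1 : Laplacian.laplacian u x = -(‖x‖ ^ A * v x) := by
    have := he x hx; rw [Real.rpow_one] at this; linarith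
  have h2 : Laplacian.laplacian u (inv L x) = -(s ^ A * ‖x‖ ^ A * v (inv L x)) := by
    have := he _ (inv_ne_zero' hL hx)
    rw [Real.rpow_one, hny, Real.mul_rpow hs0.le (norm_nonneg x)] at this
    linarith
  rw [h1, h2, Zf, pmul, kel_eq hL.le hx, ← hs]
  have e1 : L ^ (-(kk A)) = (s ^ kk A)⁻¹ * (‖x‖ ^ 2) ^ (-(kk A)) := by
    rw [← Real.rpow_neg hs0.le, ← Real.mul_rpow hs0.le hQ.le, hs, div_mul_cancel₀ _ hQ.ne']
  have e2 : L ^ kk A = s ^ kk A * (‖x‖ ^ 2) ^ kk A := by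
    rw [← Real.mul_rpow hs0.le hQ.le, hs, div_mul_cancel₀ _ hQ.ne']
  have e3 : s ^ kk A * s ^ kk A = s ^ A * s ^ 2 := by
    rw [← Real.rpow_natCast s 2, ← Real.rpow_add hs0, ← Real.rpow_add hs0, kk]
    congr 1
    push_cast
    ring
  rw [e1, e2, sq_rpow_kk A hx, show s ^ A = s ^ kk A * s ^ kk A / s ^ 2 by
    rw [e3]; field_simp]
  field_simp
  ring

theorem gap_pos_line (hn : 3 ≤ n) {L A B q : ℝ} (hA : -2 < A) (hB : -2 < B) (hL : 0 < L)
    (hq : 0 < q) (hθ : 0 < th1 n A) (hσ : 0 < th2 n A + 2 + B - q * th1 n A) {u v : E n → ℝ}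
    (hu : Super u) (hv : Super v) (he : Eqn A 1 u v) (he' : Eqn B q v u)
    (hc : Cmp L (th1 n A) u) {x : E n} (hx : L < ‖x‖ ^ 2) :
    Laplacian.laplacian (Wf L A u) x < 0 ∧ 0 < Wf L A u x := by
  have hx0 := ne_of_le_sq hL hx.le
  have hQ := sq_pos_of_ne hx0
  have hZ := Zf_pos hn hA hB hL hq hθ hσ hu hv he he' hc hx
  have hlap : Laplacian.laplacian (Wf L A u) x < 0 := by
    rw [lap_Wf hL hu he hx0, neg_lt_zero]
    exact mul_pos (div_pos (Real.rpow_pos_of_pos hQ _) hQ) hZ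
  refine ⟨hlap, ?_⟩
  have hnn : ∀ z : E n, L ≤ ‖z‖ ^ 2 → 0 ≤ Wf L A u z := fun z hz => by
    rw [Wf_eq hL u (ne_of_le_sq hL hz)]
    exact mul_nonneg (Real.rpow_nonneg (sq_nonneg _) _) (sub_nonneg.2 (hc z hz))
  refine lt_of_le_of_ne (hnn x hx.le) fun heq => ?_
  refine absurd ?_ (not_le.2 hlap)
  refine lap_nonneg_of_min (contDiffAt_Wf hL hu hx0) ?_
  filter_upwards [(isOpen_lt continuous_const (continuous_norm.pow 2)).mem_nhds
    (x := x) hx] with z hz
  rw [← heq]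
  exact hnn z (le_of_lt hz)

/-- Hopf: strict monotonicity on the sphere. -/
theorem gen_pos_line (hn : 3 ≤ n) {L A : ℝ} (hL : 0 < L) {u : E n → ℝ} (hu : Super u)
    (hW : ∀ x, L < ‖x‖ ^ 2 → Laplacian.laplacian (Wf L A u) x < 0 ∧ 0 < Wf L A u x)
    {y : E n} (hy : ‖y‖ ^ 2 = L) : 0 < gen (th1 n A) u y := by
  have h4 : 0 < 4 * L := by linarith
  obtain ⟨c, hc0, hcm⟩ := sphere_min hn h4 (f := Wf L A u)
    (fun x hx => (contDiffAt_Wf hL hu (ne_of_le_sq h4 hx.ge)).continuousAt)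
    (fun x hx => (hW x (by linarith)).2)
  have hy0 := ne_of_le_sq hL hy.ge
  have h := minAnn hL (f := fun z => Wf L A u z + c * phi L z + -c) (b := 4 * L)
    (fun z hz _ => (lap_comb hL c (-c) hz (contDiffAt_Wf hL hu hz)).1)
    (fun z hz _ => by
      have hz0 := ne_of_le_sq hL hz.le
      rw [(lap_comb hL c (-c) hz0 (contDiffAt_Wf hL hu hz0)).2]
      exact (hW z hz).1)
    (fun z hz => by
      rcases hz with hz | hz
      · rw [Wf_eq hL u (ne_of_le_sq hL hz.ge), kel_self hL hz, phi_sphere hL hz]; simp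
      · have h1 := hcm z hz
        have h2 := mul_pos hc0 (phi_pos hL (ne_of_le_sq h4 hz.ge))
        linarith)
  have hdp : HasDerivAt (fun t : ℝ => t ^ (-(2 * hf n))) (-(2 * hf n)) 1 := by
    simpa using (hasDerivAt_id (1 : ℝ)).rpow_const (p := -(2 * hf n)) (Or.inl one_ne_zero)
  have hdw : HasDerivAt (fun t : ℝ => (t ^ 2 * L) ^ (-(kk A)))
      (2 * L * (-(kk A)) * L ^ (-(kk A) - 1)) 1 := by
    refine ((((hasDerivAt_pow 2 (1 : ℝ)).mul_const L)).rpow_const (Or.inl ?_)).congr_deriv ?_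
    · simp [hL.ne']
    · simp
  have hd := (((hdw.mul (hasDerivAt_gap hu hy0 (th1 n A)))).add (hdp.const_mul c)).sub_const c
  have hres := deriv_nonneg_of_right (b := 2) (by norm_num) hd (by simp) fun t ht ht2 => by
    have ht0 : (0 : ℝ) < t := by linarith
    have hn2 : ‖t • y‖ ^ 2 = t ^ 2 * L := by
      rw [norm_smul, mul_pow, Real.norm_eq_abs, sq_abs, hy]
    have h1 := h (t • y) ⟨by rw [hn2]; exact le_mul_of_one_le_left hL.le (by nlinarith),
      by rw [hn2]; exact mul_le_mul_of_nonneg_right (by nlinarith) hL.le⟩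
    rw [Wf_eq hL u (smul_ne_zero ht0.ne' hy0), hn2,
      show phi L (t • y) = kel L (hf n) (fun _ => 1) (t • y) by rw [phi_eq_kel], ← hy,
      kel_ray hy0 ht0, kel_ray hy0 ht0, mul_one, hy] at h1
    simp only [Pi.add_apply, Pi.mul_apply]
    linarith
  simp only [one_pow, one_mul, inv_one, one_smul, Real.one_rpow, sub_self, mul_zero,
    zero_add] at hres
  have h2 : 0 < L ^ (-(kk A)) := Real.rpow_pos_of_pos hL _
  have h3 := mul_pos hc0 (hf_pos hn)
  by_contra hg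
  have := mul_nonpos_of_nonneg_of_nonpos h2.le (not_lt.1 hg)
  linarith

/-- The comparison persists slightly beyond a sphere where it is strict. -/
theorem extend_line (hn : 3 ≤ n) {L A : ℝ} (hL : 0 < L) (hθ0 : 0 < th1 n A) {u : E n → ℝ}
    (hu : Super u)
    (hW : ∀ x, L < ‖x‖ ^ 2 → Laplacian.laplacian (Wf L A u) x < 0 ∧ 0 < Wf L A u x) :
    ∀ᶠ L' in 𝓝 L, L ≤ L' → Cmp L' (th1 n A) u := by
  set θ := th1 n A with hθd
  have hgap : ∀ x : E n, L < ‖x‖ ^ 2 → kel L θ u x < u x := fun x hx => by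
    have h := (hW x hx).2
    have hx0 := ne_of_le_sq hL hx.le
    rw [Wf_eq hL u hx0] at h
    exact sub_pos.1 ((pos_iff_pos_of_mul_pos h).1 (Real.rpow_pos_of_pos (sq_pos_of_ne hx0) _))
  -- a shell of strict monotonicity
  set K := ann n (L / 2) (2 * L) ∩ {y | gen θ u y ≤ 0} with hK
  have hKc : IsCompact K := by
    refine (isCompact_ann _ _).of_isClosed_subset ?_ inter_subset_left
    rw [hK]
    have h1 : ContinuousOn (gen θ u) (ann n (L / 2) (2 * L)) := fun y hy =>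
      (continuousAt_gen hu θ (ann_ne_zero (by linarith) hy)).continuousWithinAt
    exact h1.preimage_isClosed_of_isClosed (isCompact_ann _ _).isClosed isClosed_Iic
  obtain ⟨η, hη0, hη⟩ : ∃ η > 0, ∀ y ∈ K, η < |‖y‖ ^ 2 - L| := by
    rcases K.eq_empty_or_nonempty with hKe | hKn
    · exact ⟨1, one_pos, fun y hy => by rw [hKe] at hy; exact absurd hy (Set.notMem_empty y)⟩
    · obtain ⟨z, hz, hmin⟩ := hKc.exists_isMinOn hKn (f := fun y : E n => |‖y‖ ^ 2 - L|)
        (((continuous_norm.pow 2).sub continuous_const).abs.continuousOn)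
      have hz0 : 0 < |‖z‖ ^ 2 - L| := by
        rw [abs_pos, sub_ne_zero]
        exact fun h => absurd hz.2 (not_le.2 (gen_pos_line hn hL hu hW h))
      exact ⟨|‖z‖ ^ 2 - L| / 2, by positivity, fun y hy => by
        have : |‖z‖ ^ 2 - L| ≤ |‖y‖ ^ 2 - L| := hmin hy
        linarith⟩
  set η' := min η (L / 2) with hη'
  have hη'0 : 0 < η' := lt_min hη0 (by linarith)
  have hshell : ∀ y : E n, L - η' ≤ ‖y‖ ^ 2 → ‖y‖ ^ 2 ≤ L + η' → 0 ≤ gen θ u y := by
    intro y h1 h2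
    by_contra hg
    have hl := min_le_right η (L / 2)
    have := hη y ⟨⟨by linarith, by linarith⟩, show gen θ u y ≤ 0 from le_of_lt (not_le.1 hg)⟩
    have : |‖y‖ ^ 2 - L| ≤ η' := abs_le.2 ⟨by linarith, by linarith⟩
    linarith [min_le_left η (L / 2)]
  -- infinity
  set R := 4 * L with hR
  have hR0 : 0 < R := by linarith
  obtain ⟨c0, hc00, hcm⟩ := sphere_min hn hR0 (f := Wf L A u)
    (fun x hx => (contDiffAt_Wf hL hu (ne_of_le_sq hR0 hx.ge)).continuousAt)
    (fun x hx => (hW x (by linarith)).2)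
  have hfar := exterior hn hR0 hc00.le (f := Wf L A u)
    (fun x hx _ => contDiffAt_Wf hL hu hx) (fun x hx => (hW x (by linarith)).1)
    (fun x hx => (hW x (by linarith)).2.le) hcm
  set c := c0 * R ^ kk A with hc
  have hc0 : 0 < c := by positivity
  set g : ℝ → E n → ℝ := fun a z => a ^ θ * u (a • z) with hg
  have hgc : Continuous fun w : ℝ × E n => g w.1 w.2 :=
    ((Real.continuous_rpow_const hθ0.le).comp continuous_fst).mul
      (hu.cont.comp (continuous_fst.smul continuous_snd))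
  have e1 : ∀ᶠ L' in 𝓝 L, ∀ z ∈ Metric.closedBall (0 : E n) (Real.sqrt R)⁻¹,
      g L' z < g L z + c * R ^ θ := by
    refine (isCompact_closedBall _ _).eventually_forall_of_forall_eventually fun z _ => ?_
    have h1 : ContinuousAt (fun w : ℝ × E n => g w.1 w.2 - g L w.2) (L, z) :=
      (hgc.sub (hgc.comp (Continuous.prodMk continuous_const continuous_snd))).continuousAt
    have h2 := h1.eventually (gt_mem_nhds (show g L z - g L z < c * R ^ θ by
      rw [sub_self]; positivity))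
    filter_upwards [h2] with w hw
    linarith
  have e2 : ∀ᶠ L' in 𝓝 L, ∀ x ∈ ann n (L + η') R, kel L' θ u x < u x := by
    refine (isCompact_ann _ _).eventually_forall_of_forall_eventually fun x hx => ?_
    have hx0 : x ≠ 0 := ann_ne_zero (by linarith) hx
    have h1 : ContinuousAt (fun w : ℝ × E n => kel w.1 θ u w.2 - u w.2) (L, x) := by
      have hQ : ‖x‖ ^ 2 ≠ 0 := (sq_pos_of_ne hx0).ne'
      have hn2 : ContinuousAt (fun w : ℝ × E n => ‖w.2‖ ^ 2) (L, x) :=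
        ((continuous_norm.comp continuous_snd).pow 2).continuousAt
      refine (((continuousAt_fst.rpow_const (Or.inr hθ0.le)).mul (hn2.rpow_const (Or.inl hQ))).mul
        ?_).sub (hu.cont.comp continuous_snd).continuousAt
      exact ContinuousAt.comp (g := u) hu.cont.continuousAt
        ((continuousAt_fst.div hn2 hQ).smul continuousAt_snd)
    have h2 := h1.eventually (gt_mem_nhds (show kel L θ u x - u x < 0 from
      sub_neg.2 (hgap x (by linarith [hx.1]))))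
    filter_upwards [h2] with w hw
    linarith
  filter_upwards [e1, e2, gt_mem_nhds (show L < L + η' by linarith)] with L' h1 h2 h3 hLL'
  intro x hx
  have hL' : 0 < L' := by linarith
  have hx0 := ne_of_le_sq hL' hx
  have hQ := sq_pos_of_ne hx0
  rcases le_total (‖x‖ ^ 2) (L + η') with hA | hA
  · refine cmp_of_ray hu hL' hx fun z hz1 hz2 => hshell z ?_ (hz2.trans hA)
    refine le_trans ?_ hz1
    rw [le_div_iff₀ hQ]
    have hl := min_le_right η (L / 2)
    calc (L - η') * ‖x‖ ^ 2 ≤ (L - η') * (L + η') := mul_le_mul_of_nonneg_left hA (by linarith)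
      _ ≤ L' ^ 2 := by nlinarith
  rcases le_total (‖x‖ ^ 2) R with hB | hB
  · exact (h2 x ⟨hA, hB⟩).le
  · set z := (‖x‖ ^ 2)⁻¹ • x with hz
    have hk : ∀ a, 0 ≤ a → kel a θ u x = (‖x‖ ^ 2) ^ (-θ) * g a z := fun a ha => by
      simp only [kel, hg, hz, inv, smul_smul, div_eq_mul_inv]
      ring
    have hzn : z ∈ Metric.closedBall (0 : E n) (Real.sqrt R)⁻¹ := by
      have hxn : Real.sqrt R ≤ ‖x‖ := Real.sqrt_le_iff.2 ⟨norm_nonneg x, hB⟩
      rw [mem_closedBall_zero_iff, hz, norm_smul, norm_inv, Real.norm_eq_abs, abs_of_pos hQ]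
      have hx1 : 0 < ‖x‖ := norm_pos_iff.2 hx0
      rw [show (‖x‖ ^ 2)⁻¹ * ‖x‖ = ‖x‖⁻¹ by field_simp]
      exact inv_anti₀ (Real.sqrt_pos.2 hR0) hxn
    have h4 := hfar x hB
    rw [phi_eq hR0 hx0, Wf_eq hL u hx0] at h4
    have h6 : c * (R / ‖x‖ ^ 2) ^ θ ≤ u x - kel L θ u x := by
      refine le_of_mul_le_mul_left ?_
        (Real.rpow_pos_of_pos hQ (-(kk A)))
      refine le_trans (le_of_eq ?_) h4
      rw [hc, show hf n = θ + kk A by rw [hθd, th1]; ring,
        Real.rpow_add (by positivity : 0 < R / ‖x‖ ^ 2), Real.div_rpow hR0.le hQ.le (kk A),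
        Real.rpow_neg hQ.le]
      ring
    rw [hk L hL.le] at h6
    rw [hk L' hL'.le]
    have h5 : (‖x‖ ^ 2) ^ (-θ) * g L' z ≤ (‖x‖ ^ 2) ^ (-θ) * g L z + c * (R / ‖x‖ ^ 2) ^ θ := by
      rw [Real.div_rpow hR0.le hQ.le, Real.rpow_neg hQ.le]
      have := mul_le_mul_of_nonneg_left (h1 z hzn).le (inv_nonneg.2 (Real.rpow_nonneg hQ.le θ))
      rw [mul_add] at this
      refine this.trans_eq ?_
      ring
    linarith

/-- Lower bound `u ≥ m (R/|x|^2)^θ` outside a sphere. -/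
theorem ext_lower (hn : 3 ≤ n) {A : ℝ} (hA : -2 < A) (hθ0 : 0 < th1 n A) {u v : E n → ℝ}
    (hu : Super u) (hv : Super v) (he : Eqn A 1 u v) {R : ℝ} (hR : 0 < R) :
    ∃ m, 0 < m ∧ ∀ x : E n, R ≤ ‖x‖ ^ 2 → m * (R / ‖x‖ ^ 2) ^ th1 n A ≤ u x := by
  obtain ⟨R0, c, hR0, hc, hlow⟩ := lower_step hn hu one_pos he (lower_base hn hv)
  set b := max (R0 ^ 2) R with hb
  obtain ⟨x1, hx1⟩ := exists_sq_eq (n := n) hn hR.le
  obtain ⟨z, hz, hmin⟩ := (isCompact_ann (n := n) R b).exists_isMinOn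
    ⟨x1, hx1.ge, hx1.le.trans (le_max_right _ _)⟩ hu.cont.continuousOn
  refine ⟨min (u z) (c / R ^ th1 n A), lt_min (hu.pos z) (by positivity), fun x hx => ?_⟩
  have hx0 := ne_of_le_sq hR hx
  have hQ := sq_pos_of_ne hx0
  rcases le_total (‖x‖ ^ 2) b with h | h
  · have h1 : (R / ‖x‖ ^ 2) ^ th1 n A ≤ 1 :=
      Real.rpow_le_one (by positivity) (by rw [div_le_one hQ]; exact hx) hθ0.le
    calc min (u z) (c / R ^ th1 n A) * (R / ‖x‖ ^ 2) ^ th1 n A ≤ u z * 1 :=
          mul_le_mul (min_le_left _ _) h1 (by positivity) (hu.pos z).le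
      _ = u z := mul_one _
      _ ≤ u x := hmin ⟨hx, h⟩
  · have h1 : R0 ≤ ‖x‖ :=
      (pow_le_pow_iff_left₀ hR0.le (norm_nonneg x) two_ne_zero).1 ((le_max_left _ _).trans h)
    refine le_trans ?_ (hlow x h1)
    rw [show 2 + A + 1 * -(2 * hf n) = -(2 * th1 n A) by rw [th1, kk]; ring,
      Real.rpow_neg (norm_nonneg x), Real.rpow_mul (norm_nonneg x), Real.rpow_two,
      Real.div_rpow hR.le hQ.le]
    calc min (u z) (c / R ^ th1 n A) * (R ^ th1 n A / (‖x‖ ^ 2) ^ th1 n A)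
        ≤ c / R ^ th1 n A * (R ^ th1 n A / (‖x‖ ^ 2) ^ th1 n A) :=
          mul_le_mul_of_nonneg_right (min_le_right _ _) (by positivity)
      _ = c * ((‖x‖ ^ 2) ^ th1 n A)⁻¹ := by field_simp

/-- Small spheres. -/
theorem start_line (hn : 3 ≤ n) {A : ℝ} (hA : -2 < A) (hθ0 : 0 < th1 n A) {u v : E n → ℝ}
    (hu : Super u) (hv : Super v) (he : Eqn A 1 u v) :
    ∀ᶠ L in 𝓝[>] (0 : ℝ), Cmp L (th1 n A) u := by
  obtain ⟨C, hC, hlap⟩ := lap_bound one_pos hv he
  set θ := th1 n A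
  obtain ⟨r, hr, hgen⟩ := near_zero hu hθ0 hA hC hlap
  set R := (r / 2) ^ 2 with hR
  have hR0 : 0 < R := by positivity
  obtain ⟨m, hm0, hext⟩ := ext_lower hn hA hθ0 hu hv he hR0
  obtain ⟨w, -, hwmax⟩ := (isCompact_closedBall (0 : E n) (r / 2)).exists_isMaxOn
    ⟨0, by simp; linarith⟩ hu.cont.continuousOn
  have hlim : Tendsto (fun L : ℝ => (L / R) ^ θ * u w) (𝓝[>] 0) (𝓝 0) := by
    have h1 : Tendsto (fun L : ℝ => L / R) (𝓝[>] 0) (𝓝 0) := by
      simpa using ((continuous_id.div_const R).tendsto 0).mono_left nhdsWithin_le_nhds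
    simpa [Real.zero_rpow hθ0.ne'] using (h1.rpow_const (Or.inr hθ0.le)).mul_const (u w)
  filter_upwards [hlim.eventually (gt_mem_nhds hm0), self_mem_nhdsWithin,
    Filter.Eventually.filter_mono nhdsWithin_le_nhds (gt_mem_nhds hR0)] with L h1 hL h2
  intro x hx
  have hL0 : 0 < L := hL
  have hx0 := ne_of_le_sq hL0 hx
  have hQ := sq_pos_of_ne hx0
  rcases le_total (‖x‖ ^ 2) R with hA' | hA'
  · refine cmp_of_ray hu hL0 hx fun z hz1 hz2 => ?_
    have hz0 : z ≠ 0 := ne_of_le_sq (L := L ^ 2 / ‖x‖ ^ 2) (by positivity) hz1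
    refine (hgen z hz0 ?_).le
    have : ‖z‖ ≤ r / 2 := (pow_le_pow_iff_left₀ (norm_nonneg z) (by positivity) two_ne_zero).1
      (hz2.trans hA')
    linarith
  · have hy : inv L x ∈ Metric.closedBall (0 : E n) (r / 2) := by
      rw [mem_closedBall_zero_iff]
      refine (pow_le_pow_iff_left₀ (norm_nonneg _) (by positivity) two_ne_zero).1 ?_
      rw [norm_inv_sq hx0, div_le_iff₀ hQ, ← hR]
      nlinarith
    have h3 : u (inv L x) ≤ u w := hwmax hy
    have hs : L / ‖x‖ ^ 2 = (L / R) * (R / ‖x‖ ^ 2) := by field_simp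
    calc kel L θ u x = (L / ‖x‖ ^ 2) ^ θ * u (inv L x) := kel_eq hL0.le hx0
      _ ≤ (L / ‖x‖ ^ 2) ^ θ * u w := mul_le_mul_of_nonneg_left h3 (by positivity)
      _ = ((L / R) ^ θ * u w) * (R / ‖x‖ ^ 2) ^ θ := by
          rw [hs, Real.mul_rpow (by positivity) (by positivity)]; ring
      _ ≤ m * (R / ‖x‖ ^ 2) ^ θ := mul_le_mul_of_nonneg_right h1.le (by positivity)
      _ ≤ u x := hext x hA'

/-- The moving spheres never stop. -/
theorem spheres_line (hn : 3 ≤ n) {A B q : ℝ} (hA : -2 < A) (hB : -2 < B) (hq : 0 < q)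
    (hθ0 : 0 < th1 n A) (hσ : 0 < th2 n A + 2 + B - q * th1 n A) {u v : E n → ℝ}
    (hu : Super u) (hv : Super v) (he : Eqn A 1 u v) (he' : Eqn B q v u) :
    ∀ L, 0 < L → Cmp L (th1 n A) u := by
  intro L0 hL0
  by_contra hcon
  let S : Set ℝ := {L | 0 < L ∧ ∀ L', 0 < L' → L' ≤ L → Cmp L' (th1 n A) u}
  obtain ⟨ε, hε, hsub⟩ := mem_nhdsGT_iff_exists_Ioc_subset.1 (start_line hn hA hθ0 hu hv he)
  have hεS : ε ∈ S := ⟨hε, fun L' h1 h2 => hsub ⟨h1, h2⟩⟩
  have hbdd : BddAbove S := ⟨L0, fun L hL => by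
    by_contra h
    exact hcon (hL.2 L0 hL0 (le_of_lt (not_le.1 h)))⟩
  set s := sSup S with hs
  have hs0 : 0 < s := lt_of_lt_of_le hεS.1 (le_csSup hbdd hεS)
  have hlt : ∀ L', 0 < L' → L' < s → Cmp L' (th1 n A) u := fun L' h1 h2 => by
    obtain ⟨a, ha, hLa⟩ := exists_lt_of_lt_csSup ⟨ε, hεS⟩ h2
    exact ha.2 L' h1 hLa.le
  have hcu := cmp_closed hs0 hθ0.le hu hlt
  have e := extend_line hn hs0 hθ0 hu
    fun x hx => gap_pos_line hn hA hB hs0 hq hθ0 hσ hu hv he he' hcu hx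
  obtain ⟨δ, hδ, hδ'⟩ := Metric.eventually_nhds_iff.1 e
  have hmem : s + δ / 2 ∈ S := by
    refine ⟨by linarith, fun L' h1 h2 => ?_⟩
    rcases le_or_gt L' s with h | h
    · rcases h.eq_or_lt with h' | h'
      · rw [h']; exact hcu
      · exact hlt L' h1 h'
    · exact hδ' (y := L') (by rw [Real.dist_eq, abs_of_pos (by linarith)]; linarith) h.le
  linarith [le_csSup hbdd hmem]

/-- No positive entire solution on the whole subcritical line `p = 1`. -/
theorem false_of_line (hn : 3 ≤ n) {A B q : ℝ} (hA : -2 < A) (hB : -2 < B) (hq : 0 < q)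
    (hsub : (n : ℝ) - 2 < ((n : ℝ) + A) / 2 + ((n : ℝ) + B) / (q + 1)) {u v : E n → ℝ}
    (hu : Super u) (hv : Super v) (he : Eqn A 1 u v) (he' : Eqn B q v u) : False := by
  rcases le_or_gt q 1 with hq1 | hq1
  · exact false_of_base hn hA hB one_pos hq (Or.inl (by linarith)) hu hv he he'
  rcases le_or_gt (th1 n A) 0 with hθ | hθ
  · refine false_of_base hn hB hA hq one_pos (Or.inr ?_) hv hu he' he
    rw [mul_one, lt_div_iff₀ (by linarith)]
    have hAn : 2 * hf n ≤ 2 + A := by rw [th1, kk] at hθ; linarith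
    nlinarith [hf_pos hn]
  have hσ : 0 < th2 n A + 2 + B - q * th1 n A := by
    have h1 : ((n : ℝ) - 2 - ((n : ℝ) + A) / 2) < ((n : ℝ) + B) / (q + 1) := by linarith
    rw [lt_div_iff₀ (by linarith)] at h1
    simp only [th1, th2, kk, hf]
    linarith
  refine boot_false hn one_pos hq (by linarith) (x0 := -th1 n A) ?_ hu hv he he'
    (lower_of_spheres hn hu (spheres_line hn hA hB hq hθ hσ hu hv he he'))
  rw [th2_eq] at hσ
  linarith

end Vale.Agent.P100L
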