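import Vale.Agent.P100L.Integrals
import Vale.Agent.P100L.Calc

/-!
# P100, the line p = 1: the auxiliary function is positive outside the sphere
-/

noncomputable section

namespace Vale.Agent.P100L

open Filter Topology Set MeasureTheory Vale.Agent.P100H

variable {n : ℕ}

/-- `(A+2)/2`. -/
def kk (A : ℝ) : ℝ := (A + 2) / 2

/-- `(n-4-A)/2`. -/
def th1 (n : ℕ) (A : ℝ) : ℝ := hf n - kk A

/-- `(n+A)/2`. -/
def th2 (n : ℕ) (A : ℝ) : ℝ := hf n + kk A

theorem th2_eq (n : ℕ) (A : ℝ) : th2 n A = th1 n A + 2 + A := by rw [th1, th2, kk]; ring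

theorem kk_pos {A : ℝ} (hA : -2 < A) : 0 < kk A := by rw [kk]; linarith

theorem sq_rpow_kk (A : ℝ) {x : E n} (hx : x ≠ 0) :
    (‖x‖ ^ 2) ^ kk A = ‖x‖ ^ A * ‖x‖ ^ 2 := by
  have h := norm_pos_iff.2 hx
  rw [← Real.rpow_natCast ‖x‖ 2, ← Real.rpow_mul h.le, ← Real.rpow_add h, kk]
  congr 1
  push_cast
  ring

/-- The comparison of `v` with drift given by `u`; it is the source of the weighted gap of `u`. -/
def Zf (L A : ℝ) (u v : E n → ℝ) (x : E n) : ℝ :=
  pmul (kk A) v x - L ^ kk A * kel L (hf n) v x + 4 * kk A * gen (th1 n A) u x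

/-- The Laplacian of `Zf`, in the limit sense. -/
def Ff (L A B q : ℝ) (u : E n → ℝ) (x : E n) : ℝ :=
  -((‖x‖ ^ 2) ^ kk A * ‖x‖ ^ B *
    (u x ^ q - (L / ‖x‖ ^ 2) ^ (th2 n A + 2 + B) * u (inv L x) ^ q))

theorem continuousAt_inv {L : ℝ} {x : E n} (hx : x ≠ 0) : ContinuousAt (inv L : E n → E n) x :=
  ((continuousAt_const.div (continuous_norm.pow 2).continuousAt
    (sq_pos_of_ne hx).ne')).smul continuousAt_id

theorem continuousAt_Zf {L A : ℝ} (hL : 0 < L) {u v : E n → ℝ} (hu : Super u) (hv : Super v)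
    {x : E n} (hx : x ≠ 0) : ContinuousAt (Zf L A u v) x :=
  ((contDiffAt_pmul _ hx (hv.at' hx)).continuousAt.sub
    (continuousAt_const.mul (contDiffAt_kel hL hv.diff hx).continuousAt)).add
    (continuousAt_const.mul (continuousAt_gen hu _ hx))

theorem continuousAt_Ff {L A B q : ℝ} (hL : 0 < L) {u : E n → ℝ} (hu : Super u)
    {x : E n} (hx : x ≠ 0) : ContinuousAt (Ff L A B q u) x := by
  have hQ := (sq_pos_of_ne hx).ne'
  have hn2 : ContinuousAt (fun z : E n => ‖z‖ ^ 2) x := (continuous_norm.pow 2).continuousAt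
  refine (((hn2.rpow_const (Or.inl hQ)).mul (continuous_norm.continuousAt.rpow_const
    (Or.inl (norm_ne_zero_iff.2 hx)))).mul ((hu.cont.continuousAt.rpow_const
    (Or.inl (hu.pos x).ne')).sub (((continuousAt_const.div hn2 hQ).rpow_const
    (Or.inl (div_ne_zero hL.ne' hQ))).mul ?_))).neg
  exact (ContinuousAt.comp (g := u) (f := inv L) hu.cont.continuousAt
    (continuousAt_inv hx)).rpow_const (Or.inl (hu.pos _).ne')

theorem approx_Zf {L A B q : ℝ} (hA : -2 < A) (hL : 0 < L) {u v : E n → ℝ} (hu : Super u)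
    (hv : Super v) (he : Eqn A 1 u v) (he' : Eqn B q v u) :
    Approx (Zf L A u v) (Ff L A B q u) := by
  intro K hK h0 ε hε
  have hk := kk_pos hA
  obtain ⟨M, hM⟩ := hK.exists_bound_of_continuousOn (f := fun x : E n => ‖x‖ ^ A) fun x hx =>
    (continuous_norm.continuousAt.rpow_const
      (Or.inl (norm_ne_zero_iff.2 (h0 x hx)))).continuousWithinAt
  set M' := max M 0 + 1
  have hM' : 0 < M' := by positivity
  set η := min (ε / (4 * kk A)) (ε / (4 * kk A * M')) with hη
  have hη0 : 0 < η := lt_min (by positivity) (by positivity)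
  obtain ⟨h, ⟨hq1, hq2⟩, hh⟩ := (((quot_tendsto (th1 n A) hu.diff hK h0 hη0).and
    (quot_tendsto (th2 n A) hv.diff hK h0 hη0)).and self_mem_nhdsWithin).exists
  have hh1 : (1 : ℝ) < h := hh
  have hh0 : 0 < h := by linarith
  set g := quot (th1 n A) u h
  refine ⟨fun x => pmul (kk A) v x - L ^ kk A * kel L (hf n) v x + 4 * kk A * g x,
    fun x hx => ((contDiffAt_pmul _ hx (hv.at' hx)).sub (contDiffAt_const.mul
      (contDiffAt_kel hL hv.diff hx))).add (contDiffAt_const.mul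
      (contDiffAt_quot _ hu.diff hh0 hx)), fun x hxK => ⟨?_, ?_⟩⟩
  · have h1 : |g x - gen (th1 n A) u x| < η := hq1 x hxK
    rw [Zf, show ∀ a b c : ℝ, a + 4 * kk A * b - (a + 4 * kk A * c) = 4 * kk A * (b - c) from
      fun a b c => by ring, abs_mul, abs_of_pos (by positivity)]
    calc 4 * kk A * |g x - gen (th1 n A) u x| < 4 * kk A * η :=
          mul_lt_mul_of_pos_left h1 (by positivity)
      _ ≤ 4 * kk A * (ε / (4 * kk A)) :=
          mul_le_mul_of_nonneg_left (min_le_left _ _) (by positivity)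
      _ = ε := by field_simp
  · have hx := h0 x hxK
    have hy := inv_ne_zero' hL hx
    have hQ := sq_pos_of_ne hx
    have c1 := contDiffAt_pmul (kk A) hx (hv.at' hx)
    have c2 : ContDiffAt ℝ 2 (kel L (hf n) v) x := contDiffAt_kel hL hv.diff hx
    have c3 : ContDiffAt ℝ 2 g x := contDiffAt_quot _ hu.diff hh0 hx
    have c2' : ContDiffAt ℝ 2 ((-(L ^ kk A)) • kel L (hf n) v) x := c2.const_smul (-(L ^ kk A))
    have c3' : ContDiffAt ℝ 2 ((4 * kk A) • g) x := c3.const_smul (4 * kk A)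
    have c12 : ContDiffAt ℝ 2 (pmul (kk A) v + (-(L ^ kk A)) • kel L (hf n) v) x := c1.add c2'
    have e : (fun x => pmul (kk A) v x - L ^ kk A * kel L (hf n) v x + 4 * kk A * g x) =
        pmul (kk A) v + (-(L ^ kk A)) • kel L (hf n) v + (4 * kk A) • g := by
      funext z; simp; ring
    rw [e, c12.laplacian_add c3', c1.laplacian_add c2', InnerProductSpace.laplacian_smul _ c2,
      InnerProductSpace.laplacian_smul _ c3, lap_pmul _ hx (hv.at' hx), lap_kel_hf hL hv.diff hx,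
      lap_quot _ hu.diff hh0 hx]
    simp only [smul_eq_mul]
    have h2 : Laplacian.laplacian v x = -(‖x‖ ^ B * u x ^ q) := by linarith [he' x hx]
    set s := L / ‖x‖ ^ 2 with hs
    have hs0 : 0 < s := by positivity
    have hny : ‖inv L x‖ = s * ‖x‖ := by
      rw [inv, norm_smul, Real.norm_eq_abs, abs_of_pos hs0]
    have h3 : Laplacian.laplacian v (inv L x) = -(s ^ B * ‖x‖ ^ B * u (inv L x) ^ q) := by
      have := he' _ hy
      rw [hny, Real.mul_rpow hs0.le (norm_nonneg x)] at this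
      linarith
    have h4 : Laplacian.laplacian u x = -(‖x‖ ^ A * v x) := by
      have := he x hx; rw [Real.rpow_one] at this; linarith
    have h5 : Laplacian.laplacian u (h • x) = -(h ^ A * ‖x‖ ^ A * v (h • x)) := by
      have := he _ (smul_ne_zero hh0.ne' hx)
      rw [Real.rpow_one, norm_smul, Real.norm_eq_abs, abs_of_pos hh0,
        Real.mul_rpow hh0.le (norm_nonneg x)] at this
      linarith
    have e1 : L ^ kk A = s ^ kk A * (‖x‖ ^ 2) ^ kk A := by
      rw [← Real.mul_rpow hs0.le hQ.le, hs, div_mul_cancel₀ _ hQ.ne']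
    have e2 : s ^ (th2 n A + 2 + B) = s ^ hf n * s ^ 2 * (s ^ kk A * s ^ B) := by
      rw [← Real.rpow_natCast s 2, ← Real.rpow_add hs0, ← Real.rpow_add hs0, ← Real.rpow_add hs0,
        th2]
      congr 1
      push_cast
      ring
    have e3 : h ^ th1 n A * (h ^ 2 * h ^ A) = h ^ th2 n A := by
      rw [← Real.rpow_natCast h 2, ← Real.rpow_add hh0, ← Real.rpow_add hh0, th2_eq]
      congr 1
      push_cast
      ring
    have e4 : 4 * kk A * ((h ^ th1 n A * (h ^ 2 * -(h ^ A * ‖x‖ ^ A * v (h • x))) -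
        -(‖x‖ ^ A * v x)) / (h - 1)) = -(4 * kk A * ‖x‖ ^ A) * quot (th2 n A) v h x := by
      rw [quot, ← e3]
      ring
    rw [h2, h3, h4, h5, e4, Ff, ← hs, e1, e2, sq_rpow_kk A hx,
      show kk A + hf n = th2 n A by rw [th2]; ring]
    rw [show ‖x‖ ^ A * ‖x‖ ^ 2 * (-(‖x‖ ^ B * u x ^ q) + 4 * kk A / ‖x‖ ^ 2 * gen (th2 n A) v x) +
        -(s ^ kk A * (‖x‖ ^ A * ‖x‖ ^ 2)) *
          (s ^ hf n * s ^ 2 * -(s ^ B * ‖x‖ ^ B * u (inv L x) ^ q)) +
        -(4 * kk A * ‖x‖ ^ A) * quot (th2 n A) v h x -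
        -(‖x‖ ^ A * ‖x‖ ^ 2 * ‖x‖ ^ B *
          (u x ^ q - s ^ hf n * s ^ 2 * (s ^ kk A * s ^ B) * u (inv L x) ^ q)) =
        -(4 * kk A * ‖x‖ ^ A) * (quot (th2 n A) v h x - gen (th2 n A) v x) by
      field_simp; ring,
      abs_mul, abs_neg, abs_of_nonneg (by positivity : (0:ℝ) ≤ 4 * kk A * ‖x‖ ^ A)]
    have h6 : ‖x‖ ^ A ≤ M' := by
      have h7 := hM x hxK
      rw [Real.norm_eq_abs] at h7
      linarith [le_abs_self (‖x‖ ^ A), le_max_left M 0]
    calc 4 * kk A * ‖x‖ ^ A * |quot (th2 n A) v h x - gen (th2 n A) v x|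
        ≤ 4 * kk A * M' * |quot (th2 n A) v h x - gen (th2 n A) v x| := by gcongr
      _ < 4 * kk A * M' * η := mul_lt_mul_of_pos_left (hq2 x hxK) (by positivity)
      _ ≤ 4 * kk A * M' * (ε / (4 * kk A * M')) :=
          mul_le_mul_of_nonneg_left (min_le_right _ _) (by positivity)
      _ = ε := by field_simp

theorem Ff_neg {L A B q : ℝ} (hL : 0 < L) (hq : 0 < q)
    (hσ : 0 < th2 n A + 2 + B - q * th1 n A) {u : E n → ℝ} (hu : Super u)
    (hc : Cmp L (th1 n A) u) {x : E n} (hx : L < ‖x‖ ^ 2) : Ff L A B q u x < 0 := by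
  have hx0 := ne_of_le_sq hL hx.le
  have hQ := sq_pos_of_ne hx0
  set s := L / ‖x‖ ^ 2 with hs
  have hs0 : 0 < s := by positivity
  have hs1 : s < 1 := by rw [hs, div_lt_one hQ]; exact hx
  have h1 := hc x hx.le
  rw [kel_eq hL.le hx0, ← hs] at h1
  have hy := hu.pos (inv L x)
  have hxp := norm_pos_iff.2 hx0
  have h2 : (s ^ th1 n A * u (inv L x)) ^ q ≤ u x ^ q :=
    Real.rpow_le_rpow (by positivity) h1 hq.le
  rw [Real.mul_rpow (by positivity) hy.le, ← Real.rpow_mul hs0.le] at h2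
  have h3 : s ^ (th2 n A + 2 + B) * u (inv L x) ^ q < s ^ (th1 n A * q) * u (inv L x) ^ q :=
    mul_lt_mul_of_pos_right (Real.rpow_lt_rpow_of_exponent_gt hs0 hs1 (by linarith))
      (by positivity)
  rw [Ff, neg_lt_zero, ← hs]
  exact mul_pos (by positivity) (by linarith)

/-- Averages on a sphere are controlled by the value at any of its points. -/
theorem avg_le_sphere (hn : 3 ≤ n) : ∃ C : ℝ, 0 ≤ C ∧ ∀ (u : E n → ℝ), Super u →
    ∀ (ρ : ℝ) (x0 xs : E n), 0 < ρ → ‖x0‖ = 16 * ρ → ‖xs‖ = 16 * ρ → avg u x0 ρ ≤ C * u xs := by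
  set C1 := 64 / 27 * 8 ^ n * mass n 3 with hC1
  set vol := volume.real (Metric.closedBall (0 : E n) 1) with hvol
  have hvol0 : 0 < vol := ENNReal.toReal_pos
    (Metric.measure_closedBall_pos volume (0 : E n) one_pos).ne' measure_closedBall_lt_top.ne
  have hC10 : 0 < C1 := by have := mass_pos n (show 3 ≠ 0 by norm_num); positivity
  set C2 := C1 / vol
  have hC2 : 0 < C2 := by positivity
  refine ⟨C2 ^ 24 * C1, by positivity, fun u hu ρ x0 xs hρ hx0 hxs => ?_⟩
  have step : ∀ x x' : E n, ‖x - x'‖ ≤ 2 * ρ → 9 * ρ < ‖x'‖ → avg u x ρ ≤ C2 * avg u x' ρ := by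
    intro x x' h1 h2
    have h3 : ∀ z ∈ Metric.closedBall (0 : E n) 1, avg u x ρ / C1 ≤ u (x' + ρ • z) := by
      intro z hz
      have hzz : ‖ρ • z‖ ≤ ρ := by
        rw [norm_smul, Real.norm_eq_abs, abs_of_pos hρ]
        exact mul_le_of_le_one_right hρ.le (mem_closedBall_zero_iff.1 hz)
      rw [div_le_iff₀' hC10]
      refine weak_harnack hu hρ ?_ ?_
      · rw [← sub_sub]
        linarith [norm_sub_le (x - x') (ρ • z)]
      · have := norm_le_add_norm_add x' (ρ • z)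
        linarith
    have h4 := setIntegral_mono_on (integrableOn_const (hs := measure_closedBall_lt_top.ne)
      (C := avg u x ρ / C1)) (integrableOn_avg hu x' ρ) measurableSet_closedBall h3
    rw [setIntegral_const, smul_eq_mul, ← hvol] at h4
    rw [show C2 * avg u x' ρ = (C1 / vol) * avg u x' ρ from rfl]
    calc avg u x ρ = C1 / vol * (vol * (avg u x ρ / C1)) := by field_simp
      _ ≤ C1 / vol * avg u x' ρ := mul_le_mul_of_nonneg_left h4 (by positivity)
  have chord : ∀ a b : E n, ‖a‖ = 16 * ρ → ‖b‖ = 16 * ρ → inner ℝ a b = 0 →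
      avg u a ρ ≤ C2 ^ 12 * avg u b ρ := by
    intro a b ha hb hab
    have hind : ∀ j : ℕ, j ≤ 12 →
        avg u a ρ ≤ C2 ^ j * avg u (a + ((j : ℝ) / 12) • (b - a)) ρ := by
      intro j
      induction j with
      | zero => intro _; simp
      | succ j ih =>
        intro hj
        refine (ih (by omega)).trans ?_
        rw [pow_succ, mul_assoc]
        refine mul_le_mul_of_nonneg_left (step _ _ ?_ ?_) (by positivity)
        · rw [show a + ((j : ℝ) / 12) • (b - a) - (a + (((j + 1 : ℕ) : ℝ) / 12) • (b - a)) =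
            (-(1 / 12) : ℝ) • (b - a) by push_cast; module,
            norm_smul, Real.norm_eq_abs, abs_neg, abs_of_pos (by norm_num : (0:ℝ) < 1/12)]
          have h5 : ‖b - a‖ ^ 2 ≤ (24 * ρ) ^ 2 := by
            rw [norm_sub_sq_real, real_inner_comm, hab, ha, hb]; nlinarith
          have h6 := (pow_le_pow_iff_left₀ (norm_nonneg _) (by positivity) two_ne_zero).1 h5
          linarith
        · set t : ℝ := ((j + 1 : ℕ) : ℝ) / 12
          have e : a + t • (b - a) = (1 - t) • a + t • b := by module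
          have h5 : (9 * ρ) ^ 2 < ‖a + t • (b - a)‖ ^ 2 := by
            rw [e, norm_add_sq_real, real_inner_smul_left, real_inner_smul_right, hab, norm_smul,
              norm_smul, ha, hb, Real.norm_eq_abs, Real.norm_eq_abs]
            simp only [mul_pow, sq_abs]
            nlinarith [mul_nonneg (sq_nonneg (2 * t - 1)) (sq_nonneg ρ), mul_pos hρ hρ]
          exact (pow_lt_pow_iff_left₀ (by positivity) (norm_nonneg _) two_ne_zero).1 h5
    have := hind 12 le_rfl
    norm_num at this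
    exact this
  obtain ⟨w, hw, hw1, hw2⟩ : ∃ w : E n, ‖w‖ = 16 * ρ ∧ inner ℝ x0 w = 0 ∧ inner ℝ w xs = 0 := by
    set T : E n →ₗ[ℝ] ℝ × ℝ := (innerₛₗ ℝ x0).prod (innerₛₗ ℝ xs)
    have hker : LinearMap.ker T ≠ ⊥ := by
      refine LinearMap.ker_ne_bot_of_finrank_lt ?_
      simp only [Module.finrank_prod, Module.finrank_self, finrank_euclideanSpace_fin]
      omega
    obtain ⟨z, hz, hz0⟩ := Submodule.exists_mem_ne_zero_of_ne_bot hker
    rw [LinearMap.mem_ker] at hz
    have hz1 : inner ℝ x0 z = 0 := congrArg Prod.fst hz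
    have hz2 : inner ℝ xs z = 0 := congrArg Prod.snd hz
    have hzn := norm_pos_iff.2 hz0
    refine ⟨(16 * ρ / ‖z‖) • z, ?_, by rw [real_inner_smul_right, hz1, mul_zero],
      by rw [real_inner_smul_left, real_inner_comm, hz2, mul_zero]⟩
    rw [norm_smul, Real.norm_eq_abs, abs_of_pos (by positivity)]
    field_simp
  calc avg u x0 ρ ≤ C2 ^ 12 * avg u w ρ := chord x0 w hx0 hw hw1
    _ ≤ C2 ^ 12 * (C2 ^ 12 * avg u xs ρ) :=
        mul_le_mul_of_nonneg_left (chord w xs hw hxs hw2) (by positivity)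
    _ ≤ C2 ^ 12 * (C2 ^ 12 * (C1 * u xs)) := by
        refine mul_le_mul_of_nonneg_left (mul_le_mul_of_nonneg_left ?_ (by positivity))
          (by positivity)
        exact weak_harnack hu hρ (by simp; positivity) (by rw [hxs]; linarith)
    _ = C2 ^ 24 * C1 * u xs := by ring

/-- The sphere minimum of `u` tends to zero at infinity. -/
theorem sphere_small (hn : 3 ≤ n) {B q : ℝ} (hB : -2 < B) (hq : 0 < q) {u v : E n → ℝ}
    (hu : Super u) (hv : Super v) (he' : Eqn B q v u) {ε : ℝ} (hε : 0 < ε) :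
    ∃ R0 : ℝ, ∀ R, R0 ≤ R → ∃ x : E n, ‖x‖ = R ∧ u x < ε := by
  by_contra hcon
  rw [not_exists] at hcon
  obtain ⟨m, hm0, hm⟩ := sphere_min hn one_pos (f := u) (fun x _ => hu.cont.continuousAt)
    (fun x _ => hu.pos x)
  have hlow : Lower u 0 := by
    refine ⟨1, min ε m, one_pos, lt_min hε hm0, fun x hx => ?_⟩
    have h := hcon (max ‖x‖ 1)
    simp only [not_forall, not_exists, not_and, not_lt] at h
    obtain ⟨R, hR, hR'⟩ := h
    have hR1 : ‖x‖ ≤ R := (le_max_left _ _).trans hR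
    have hcomb := minAnn (f := fun z => u z + 0 * phi 1 z + -(min ε m)) one_pos (b := R ^ 2)
      (fun z hz _ => (lap_comb one_pos 0 _ hz (hu.at' hz)).1)
      (fun z hz _ => by
        have hz0 := ne_of_le_sq one_pos hz.le
        rw [(lap_comb one_pos 0 _ hz0 (hu.at' hz0)).2]
        exact hu.lap z hz0)
      (fun z hz => by
        rcases hz with hz | hz
        · linarith [hm z hz, min_le_right ε m]
        · have hzR : ‖z‖ = R :=
            (pow_left_inj₀ (norm_nonneg z) (by linarith [norm_nonneg x]) two_ne_zero).1 hz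
          linarith [hR' z hzR, min_le_left ε m])
      x ⟨by nlinarith, pow_le_pow_left₀ (norm_nonneg x) hR1 2⟩
    rw [Real.rpow_zero]
    linarith
  exact lower_false hn hv (by linarith : 0 < 2 + B + q * 0) (lower_step hn hv hq he' hlow)

theorem Zf_mean {L A B q : ℝ} (hA : -2 < A) (hL : 0 < L) (hq : 0 < q)
    (hσ : 0 < th2 n A + 2 + B - q * th1 n A) {u v : E n → ℝ} (hu : Super u)
    (hv : Super v) (he : Eqn A 1 u v) (he' : Eqn B q v u) (hc : Cmp L (th1 n A) u)
    {x0 : E n} {ρ : ℝ} (hρ : 0 < ρ)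
    (hball : ∀ y ∈ Metric.closedBall x0 ρ, L < ‖y‖ ^ 2) :
    ∫ z, bump 3 z * Zf L A u v (x0 + ρ • z) ≤ mass n 3 * Zf L A u v x0 := by
  have hne : ∀ y ∈ Metric.closedBall x0 ρ, y ≠ 0 := fun y hy => ne_of_le_sq hL (hball y hy).le
  have hm3 := mass_pos n (show 3 ≠ 0 by norm_num)
  have hm4 := mass_pos n (show 4 ≠ 0 by norm_num)
  refine le_of_forall_pos_le_add fun η hη => ?_
  set η' := η / (2 * mass n 3 + mass n 4 * ρ ^ 2 / 16) with hη'
  have hη'0 : 0 < η' := by positivity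
  obtain ⟨G, hG, hGK⟩ := approx_Zf hA hL hu hv he he' _ (isCompact_closedBall x0 ρ) hne η' hη'0
  have h1 := mean_le hρ (fun y hy => hG y (hne y hy)) (δ := η') fun y hy => by
    have := Ff_neg hL hq hσ hu hc (hball y hy)
    linarith [(abs_lt.1 (hGK y hy).2).2]
  have hGi : Integrable fun z => bump 3 z * G (x0 + ρ • z) := integrable_cut (by norm_num)
    fun z hz => ContinuousAt.comp (g := G) (f := fun z : E n => x0 + ρ • z)
      (hG _ (hne _ (mem_ball_affine hρ.le le_rfl hz))).continuousAt (by fun_prop)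
  have hcZ : Integrable fun z => bump 3 z * Zf L A u v (x0 + ρ • z) := integrable_cut (by norm_num)
    fun z hz => ContinuousAt.comp (g := Zf L A u v) (f := fun z : E n => x0 + ρ • z)
      (continuousAt_Zf hL hu hv (hne _ (mem_ball_affine hρ.le le_rfl hz))) (by fun_prop)
  have h2 : ∫ z, bump 3 z * Zf L A u v (x0 + ρ • z) ≤
      (∫ z, bump 3 z * G (x0 + ρ • z)) + η' * mass n 3 := by
    rw [mass, ← integral_const_mul, ← integral_add hGi ((integrable_bump (by norm_num)).const_mul η')]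
    refine integral_mono hcZ
      (hGi.add ((integrable_bump (by norm_num)).const_mul η')) fun z => ?_
    rcases le_or_gt ‖z‖ 1 with hz | hz
    · have h3 := (abs_lt.1 (hGK _ (mem_ball_affine (x0 := x0) hρ.le le_rfl hz)).1).1
      have h4 := mul_le_mul_of_nonneg_left (show Zf L A u v (x0 + ρ • z) ≤ G (x0 + ρ • z) + η' by
        linarith) (bump_nonneg 3 z)
      linarith
    · simp [bump_out (show 3 ≠ 0 by norm_num) hz.le]
  have h5 := (abs_lt.1 (hGK x0 (Metric.mem_closedBall_self hρ.le)).1).2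
  have h6 : mass n 3 * G x0 ≤ mass n 3 * (Zf L A u v x0 + η') :=
    mul_le_mul_of_nonneg_left (by linarith) hm3.le
  have h7 : η' * (2 * mass n 3 + mass n 4 * ρ ^ 2 / 16) = η := by
    rw [hη']; field_simp
  linarith

theorem Zf_int_lower {L A M : ℝ} (hn : 3 ≤ n) (hA : -2 < A) (hL : 0 < L) (hθ : 0 < th1 n A)
    {u v : E n → ℝ} (hu : Super u) (hv : Super v)
    (hM : ∀ y ∈ Metric.closedBall (0 : E n) (Real.sqrt L), v y ≤ M) {x0 : E n} {ρ : ℝ}
    (hρ : 0 < ρ) (hball : ∀ y ∈ Metric.closedBall x0 ρ, ‖x0‖ / 2 < ‖y‖ ∧ L < ‖y‖ ^ 2) :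
    4 * kk A * (∫ z, bump 3 z * fderiv ℝ u (x0 + ρ • z) (x0 + ρ • z)) -
        L ^ kk A * ((4 * L / ‖x0‖ ^ 2) ^ hf n * M) * mass n 3 ≤
      ∫ z, bump 3 z * Zf L A u v (x0 + ρ • z) := by
  have hk := kk_pos hA
  have hh := hf_pos hn
  have hne : ∀ z : E n, ‖z‖ ≤ 1 → x0 + ρ • z ≠ 0 := fun z hz =>
    ne_of_le_sq hL (hball _ (mem_ball_affine hρ.le le_rfl hz)).2.le
  have hx0 : 0 < ‖x0‖ :=
    norm_pos_iff.2 (ne_of_le_sq hL (hball x0 (Metric.mem_closedBall_self hρ.le)).2.le)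
  set R := ‖x0‖
  set d := L ^ kk A * ((4 * L / R ^ 2) ^ hf n * M) with hd
  have hcZ : ∀ z : E n, ‖z‖ ≤ 1 → ContinuousAt (fun z => Zf L A u v (x0 + ρ • z)) z := fun z hz =>
    ContinuousAt.comp (g := Zf L A u v) (f := fun z : E n => x0 + ρ • z)
      (continuousAt_Zf hL hu hv (hne z hz)) (by fun_prop)
  have hDc : ∀ z : E n, ‖z‖ ≤ 1 →
      ContinuousAt (fun z => fderiv ℝ u (x0 + ρ • z) (x0 + ρ • z)) z := fun z hz =>
    ContinuousAt.comp (g := fun y => fderiv ℝ u y y) (f := fun z : E n => x0 + ρ • z)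
      ((((hu.at' (hne z hz)).fderiv_right (m := 1) (by norm_num)).continuousAt).clm_apply
        continuousAt_id) (by fun_prop)
  have hi := integrable_cut (show (3 : ℕ) ≠ 0 by norm_num) hDc
  rw [mass, ← integral_const_mul, ← integral_const_mul,
    ← integral_sub (hi.const_mul _) ((integrable_bump (by norm_num)).const_mul d)]
  refine integral_mono ((hi.const_mul _).sub ((integrable_bump (by norm_num)).const_mul d))
    (integrable_cut (by norm_num) hcZ) fun z => ?_
  rcases le_or_gt ‖z‖ 1 with hz | hz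
  · obtain ⟨hy1, hy2⟩ := hball _ (mem_ball_affine (x0 := x0) hρ.le le_rfl hz)
    have hy0 := hne z hz
    generalize x0 + ρ • z = y at hy1 hy2 hy0 ⊢
    have hQ := sq_pos_of_ne hy0
    have h4 : kel L (hf n) v y ≤ (4 * L / R ^ 2) ^ hf n * M := by
      rw [kel_eq hL.le hy0]
      refine mul_le_mul (Real.rpow_le_rpow (by positivity) ?_ hh.le) ?_ (hv.pos _).le
        (by positivity)
      · rw [show 4 * L / R ^ 2 = L / (R / 2) ^ 2 by ring]
        exact div_le_div_of_nonneg_left hL.le (by positivity)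
          (pow_le_pow_left₀ (by positivity) hy1.le 2)
      · refine hM _ (mem_closedBall_zero_iff.2 (Real.le_sqrt_of_sq_le ?_))
        rw [norm_inv_sq hy0, div_le_iff₀ hQ]
        nlinarith
    have h5 : L ^ kk A * kel L (hf n) v y ≤ d := mul_le_mul_of_nonneg_left h4 (by positivity)
    have h6 : 0 < pmul (kk A) v y := mul_pos (Real.rpow_pos_of_pos hQ _) (hv.pos y)
    have h7 : 4 * kk A * fderiv ℝ u y y - d ≤ Zf L A u v y := by
      have h8 := mul_pos (mul_pos (mul_pos (show (0:ℝ) < 4 by norm_num) hk) hθ) (hu.pos y)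
      simp only [Zf, gen]
      linarith
    calc 4 * kk A * (bump 3 z * fderiv ℝ u y y) - d * bump 3 z
        = bump 3 z * (4 * kk A * fderiv ℝ u y y - d) := by ring
      _ ≤ bump 3 z * Zf L A u v y := mul_le_mul_of_nonneg_left h7 (bump_nonneg 3 z)
  · simp [bump_out (show 3 ≠ 0 by norm_num) hz.le]

theorem Zf_far (hn : 3 ≤ n) {L A B q : ℝ} (hA : -2 < A) (hB : -2 < B) (hL : 0 < L) (hq : 0 < q)
    (hθ : 0 < th1 n A) (hσ : 0 < th2 n A + 2 + B - q * th1 n A) {u v : E n → ℝ} (hu : Super u)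
    (hv : Super v) (he : Eqn A 1 u v) (he' : Eqn B q v u) (hc : Cmp L (th1 n A) u)
    {ε : ℝ} (hε : 0 < ε) : ∃ R0 : ℝ, ∀ x : E n, R0 ≤ ‖x‖ → -ε ≤ Zf L A u v x := by
  have hk := kk_pos hA
  have hh := hf_pos hn
  have hm3 := mass_pos n (show 3 ≠ 0 by norm_num)
  obtain ⟨C, hC, havg⟩ := avg_le_sphere hn
  obtain ⟨w, -, hwmax⟩ := (isCompact_closedBall (0 : E n) (Real.sqrt L)).exists_isMaxOn
    ⟨0, by simp⟩ hv.cont.continuousOn
  set M := v w
  have hM : 0 < M := hv.pos w
  have hlim : Tendsto (fun R : ℝ => L ^ kk A * ((4 * L / R ^ 2) ^ hf n * M)) atTop (𝓝 0) := by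
    have h1 : Tendsto (fun R : ℝ => 4 * L / R ^ 2) atTop (𝓝 0) :=
      tendsto_const_nhds.div_atTop (tendsto_pow_atTop two_ne_zero)
    simpa [Real.zero_rpow hh.ne'] using
      (((h1.rpow_const (Or.inr hh.le)).mul_const M).const_mul (L ^ kk A))
  obtain ⟨R2, hR2⟩ := eventually_atTop.1 (hlim.eventually (gt_mem_nhds (half_pos hε)))
  set κ := 4 * kk A * (103 * n) * C + 1 with hκ
  have hκ0 : 0 < κ := by positivity
  obtain ⟨R1, hR1⟩ := sphere_small hn hB hq hu hv he' (ε := ε / 2 * mass n 3 / κ) (by positivity)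
  refine ⟨max (max R1 R2) (2 * Real.sqrt L + 1), fun x0 hx0 => ?_⟩
  simp only [max_le_iff] at hx0
  obtain ⟨⟨hxR1, hxR2⟩, hxL⟩ := hx0
  set R := ‖x0‖
  have hsL := Real.sqrt_nonneg L
  have hR0 : 0 < R := by linarith
  set ρ := R / 16 with hρd
  have hρ : 0 < ρ := by positivity
  have hx16 : ‖x0‖ = 16 * ρ := by rw [hρd]; ring
  obtain ⟨xs, hxs, hxsu⟩ := hR1 R hxR1
  have hball : ∀ y ∈ Metric.closedBall x0 ρ, R / 2 < ‖y‖ ∧ L < ‖y‖ ^ 2 ∧ y ≠ 0 := fun y hy => by
    rw [Metric.mem_closedBall, dist_eq_norm, norm_sub_rev] at hy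
    have h1 := norm_sub_norm_le x0 y
    have h2 : R / 2 < ‖y‖ := by linarith
    have h3 : Real.sqrt L < ‖y‖ := by linarith
    refine ⟨h2, ?_, norm_pos_iff.1 (by linarith)⟩
    nlinarith [Real.sq_sqrt hL.le]
  have hmean := Zf_mean hA hL hq hσ hu hv he he' hc hρ fun y hy => (hball y hy).2.1
  set d := L ^ kk A * ((4 * L / R ^ 2) ^ hf n * M) with hd
  have hlow := Zf_int_lower hn hA hL hθ hu hv (M := M) (fun y hy => hwmax hy) hρ
    fun y hy => ⟨(hball y hy).1, (hball y hy).2.1⟩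
  have hrad := radial_mean hu hρ hx16
  have hav := havg u hu ρ x0 xs hρ hx16 (hxs.trans hx16)
  have h8 : κ * u xs ≤ ε / 2 * mass n 3 := by
    rw [lt_div_iff₀ hκ0] at hxsu; linarith
  have h9 : 4 * kk A * (103 * n) * avg u x0 ρ ≤ ε / 2 * mass n 3 := by
    refine le_trans ?_ h8
    calc 4 * kk A * (103 * n) * avg u x0 ρ ≤ 4 * kk A * (103 * n) * (C * u xs) :=
          mul_le_mul_of_nonneg_left hav (by positivity)
      _ ≤ κ * u xs := by
          rw [hκ]; nlinarith [hu.pos xs]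
  have h10 : d * mass n 3 ≤ ε / 2 * mass n 3 :=
    mul_le_mul_of_nonneg_right (hR2 R hxR2).le hm3.le
  have h11 := mul_le_mul_of_nonneg_left hrad (by positivity : (0:ℝ) ≤ 4 * kk A)
  refine le_of_mul_le_mul_left ?_ hm3
  linarith

theorem Zf_nonneg (hn : 3 ≤ n) {L A B q : ℝ} (hA : -2 < A) (hB : -2 < B) (hL : 0 < L) (hq : 0 < q)
    (hθ : 0 < th1 n A) (hσ : 0 < th2 n A + 2 + B - q * th1 n A) {u v : E n → ℝ} (hu : Super u)
    (hv : Super v) (he : Eqn A 1 u v) (he' : Eqn B q v u) (hc : Cmp L (th1 n A) u)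
    {x : E n} (hx : L ≤ ‖x‖ ^ 2) : 0 ≤ Zf L A u v x := by
  refine le_of_forall_pos_le_add fun ε hε => ?_
  obtain ⟨R0, hR0⟩ := Zf_far hn hA hB hL hq hθ hσ hu hv he he' hc hε
  set R := max R0 ‖x‖ with hR
  have hRn : 0 ≤ R := (norm_nonneg x).trans (le_max_right _ _)
  have h := minLim hn (approx_Zf hA hL hu hv he he') (isCompact_ann (n := n) L (R ^ 2))
    (fun z hz => ann_ne_zero hL hz) (isOpen_openAnn L (R ^ 2))
    (fun z hz => ⟨hz.1.le, hz.2.le⟩) 0 0 ε
    (fun z hz => by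
      have := Ff_neg hL hq hσ hu hc hz.1
      linarith)
    (fun z hz hzU => by
      rcases hz.1.eq_or_lt with h | h
      · have hz0 := ann_ne_zero hL hz
        have hg : 0 ≤ gen (th1 n A) u z := gen_nonneg hu hz0 (by rw [← h]; exact hc)
        have hk := kk_pos hA
        rw [Zf, pmul, kel_self hL h.symm, ← h, sub_self, zero_add]
        have := mul_nonneg (by positivity : (0:ℝ) ≤ 4 * kk A) hg
        linarith
      · have h2 : ‖z‖ ^ 2 = R ^ 2 := by
          rcases hz.2.eq_or_lt with h' | h'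
          · exact h'
          · exact absurd ⟨h, h'⟩ hzU
        have h3 : R0 ≤ ‖z‖ :=
          ((pow_left_inj₀ (norm_nonneg z) hRn two_ne_zero).1 h2).symm ▸ le_max_left _ _
        linarith [hR0 z h3])
    x ⟨hx, pow_le_pow_left₀ (norm_nonneg x) (le_max_right _ _) 2⟩
  linarith

theorem Zf_pos (hn : 3 ≤ n) {L A B q : ℝ} (hA : -2 < A) (hB : -2 < B) (hL : 0 < L) (hq : 0 < q)
    (hθ : 0 < th1 n A) (hσ : 0 < th2 n A + 2 + B - q * th1 n A) {u v : E n → ℝ} (hu : Super u)
    (hv : Super v) (he : Eqn A 1 u v) (he' : Eqn B q v u) (hc : Cmp L (th1 n A) u)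
    {x : E n} (hx : L < ‖x‖ ^ 2) : 0 < Zf L A u v x := by
  obtain ⟨r, hr, hsub⟩ := Metric.nhds_basis_closedBall.mem_iff.1
    ((isOpen_lt continuous_const (continuous_norm.pow 2)).mem_nhds (x := x) hx)
  have hne : ∀ z ∈ Metric.closedBall x r, z ≠ 0 := fun z hz =>
    ne_of_le_sq hL (le_of_lt (hsub hz))
  obtain ⟨z0, hz0, hmax⟩ := (isCompact_closedBall x r).exists_isMaxOn
    ⟨x, Metric.mem_closedBall_self hr.le⟩ (f := Ff L A B q u)
    fun z hz => (continuousAt_Ff hL hu (hne z hz)).continuousWithinAt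
  have hF0 := Ff_neg hL hq hσ hu hc (hsub hz0)
  have hn' : (0 : ℝ) < n := by exact_mod_cast (show 0 < n by omega)
  set c := -(Ff L A B q u z0) / (2 * n) with hc'
  have hc0 : 0 < c := div_pos (neg_pos.2 hF0) (by positivity)
  have h := minLim hn (approx_Zf hA hL hu hv he he') (isCompact_closedBall x r) hne
    Metric.isOpen_ball Metric.ball_subset_closedBall x c (-(c * r ^ 2))
    (fun z hz => by
      have h1 : Ff L A B q u z ≤ Ff L A B q u z0 := hmax (Metric.ball_subset_closedBall hz)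
      have h2 : 2 * n * c = -(Ff L A B q u z0) := by rw [hc']; field_simp
      linarith)
    (fun z hz hzU => by
      have h1 : dist z x = r := le_antisymm hz (by simpa using hzU)
      rw [dist_eq_norm] at h1
      rw [h1]
      have := Zf_nonneg hn hA hB hL hq hθ hσ hu hv he he' hc (le_of_lt (hsub hz))
      linarith)
    x (Metric.mem_closedBall_self hr.le)
  simp only [sub_self, norm_zero] at h
  have := mul_pos hc0 (pow_pos hr 2)
  linarith

end Vale.Agent.P100L
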